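import Mathlib

/-!
# P271 DENS: Euclidean density of Zariski open subsets of an irreducible affine variety

`dense_points` (a verbatim copy of the lemma of the Starting-point library `P282/Bd3/B2.lean`, so
that it can be imported without that library): `S` a finitely generated `ℂ`-domain,
`p : S →ₐ[ℂ] ℂ`, `e ≠ 0`: there are points `π` with `π e ≠ 0` converging pointwise to `p`.

`dens`: `P` a prime ideal of `ℂ[x_1, …, x_N]`, `f ∉ P`, `z` a zero of `P`: `z` is in the Euclidean
closure of `{w | w zero of P, f w ≠ 0}`.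
-/

set_option linter.all false

open Filter Topology Polynomial

namespace Vale.Agent.P271.H112

section lift

variable {A S : Type*} [CommRing A] [Algebra ℂ A] [CommRing S] [Algebra ℂ S]

/-- Lifting a complex point along an integral ring homomorphism. -/
theorem exists_point_over (ψ : A →ₐ[ℂ] S) (hψ : ψ.toRingHom.IsIntegral) (φ : A →ₐ[ℂ] ℂ)
    (hker : ∀ a, ψ a = 0 → φ a = 0) : ∃ π : S →ₐ[ℂ] ℂ, ∀ a, π (ψ a) = φ a := by
  letI : Algebra A S := ψ.toRingHom.toAlgebra
  have hmap : ∀ a, algebraMap A S a = ψ a := fun _ => rfl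
  have hi : Algebra.IsIntegral A S := ⟨hψ⟩
  let P : Ideal A := RingHom.ker φ.toRingHom
  have hPp : P.IsPrime := RingHom.ker_isPrime _
  have hP : RingHom.ker (algebraMap A S) ≤ P := fun a ha => hker a ha
  obtain ⟨Q, -, hQp, hQ⟩ := Ideal.exists_ideal_over_prime_of_isIntegral P (⊥ : Ideal S) hP
  have hmem : ∀ a, ψ a ∈ Q ↔ φ a = 0 := by
    intro a
    have : a ∈ Q.comap (algebraMap A S) ↔ a ∈ P := by rw [hQ]
    exact this
  have hdom : IsDomain (S ⧸ Q) := Ideal.Quotient.isDomain Q
  have hint : Algebra.IsIntegral ℂ (S ⧸ Q) := by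
    refine ⟨fun x => ?_⟩
    obtain ⟨s, rfl⟩ := Ideal.Quotient.mk_surjective x
    obtain ⟨f, hf, hfs⟩ := hψ s
    refine ⟨f.map φ.toRingHom, hf.map _, ?_⟩
    have h1 : (algebraMap ℂ (S ⧸ Q)).comp φ.toRingHom =
        (Ideal.Quotient.mk Q).comp ψ.toRingHom := by
      ext a
      show algebraMap ℂ (S ⧸ Q) (φ a) = Ideal.Quotient.mk Q (ψ a)
      have h2 : ψ (a - algebraMap ℂ A (φ a)) ∈ Q := by
        rw [hmem, map_sub, AlgHom.commutes]
        simp
      rw [map_sub, AlgHom.commutes] at h2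
      have h3 := Ideal.Quotient.eq.2 h2
      rw [h3]
      rfl
    rw [eval₂_map, h1, ← hom_eval₂, hfs, map_zero]
  have hbij := IsAlgClosed.algebraMap_bijective_of_isIntegral (k := ℂ) (K := S ⧸ Q)
  let E : ℂ ≃ₐ[ℂ] (S ⧸ Q) := AlgEquiv.ofBijective (Algebra.ofId ℂ (S ⧸ Q)) hbij
  refine ⟨(E.symm : (S ⧸ Q) →ₐ[ℂ] ℂ).comp (Ideal.Quotient.mkₐ ℂ Q), fun a => ?_⟩
  show E.symm (Ideal.Quotient.mk Q (ψ a)) = φ a
  rw [AlgEquiv.symm_apply_eq]
  show _ = algebraMap ℂ (S ⧸ Q) (φ a)
  have h2 : ψ (a - algebraMap ℂ A (φ a)) ∈ Q := by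
    rw [hmem, map_sub, AlgHom.commutes]
    simp
  rw [map_sub, AlgHom.commutes] at h2
  exact Ideal.Quotient.eq.2 h2

end lift

section poly

variable {d : ℕ}

theorem mv_dense (c : MvPolynomial (Fin d) ℂ) (hc : c ≠ 0) (a : Fin d → ℂ) :
    (𝓝 a ⊓ 𝓟 {z | MvPolynomial.eval z c ≠ 0}).NeBot := by
  classical
  obtain ⟨b, hb⟩ : ∃ b, MvPolynomial.eval b c ≠ 0 := by
    by_contra h
    push Not at h
    exact hc (MvPolynomial.funext (fun x => by rw [h x, map_zero]))
  -- restriction to the line `a + t (b - a)`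
  let q : ℂ[X] := MvPolynomial.aeval (fun i => C (a i) + X * C (b i - a i)) c
  have hq : ∀ t, q.eval t = MvPolynomial.eval (fun i => a i + t * (b i - a i)) c := by
    intro t
    have h1 : (Polynomial.evalRingHom t).comp
        (MvPolynomial.aeval (R := ℂ) (fun i => C (a i) + X * C (b i - a i))).toRingHom =
        MvPolynomial.eval (fun i => a i + t * (b i - a i)) := by
      apply MvPolynomial.ringHom_ext
      · intro r; simp
      · intro i; simp
    exact congrArg (fun φ : MvPolynomial (Fin d) ℂ →+* ℂ => φ c) h1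
  have hq0 : q ≠ 0 := by
    intro h
    apply hb
    have := hq 1
    rw [h, eval_zero] at this
    rw [this]
    congr 2
    ext i
    ring
  have hfr : ∃ᶠ t in 𝓝 (0 : ℂ), q.eval t ≠ 0 := by
    have h1 : ∀ᶠ t in 𝓝[≠] (0 : ℂ), q.eval t ≠ 0 := by
      have hfin : {t : ℂ | q.eval t = 0}.Finite := by
        refine (q.roots.toFinset.finite_toSet).subset fun t ht => ?_
        simp only [Finset.mem_coe, Multiset.mem_toFinset, mem_roots hq0]
        exact ht
      have h2 := (hfin.subset (Set.diff_subset (t := {0}))).isClosed.isOpen_compl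
      have h3 : ({t : ℂ | q.eval t = 0} \ {0})ᶜ ∈ 𝓝 (0 : ℂ) := h2.mem_nhds (by simp)
      filter_upwards [nhdsWithin_le_nhds h3, self_mem_nhdsWithin] with t ht ht0 h
      exact ht ⟨h, ht0⟩
    exact h1.frequently.filter_mono nhdsWithin_le_nhds
  rw [← frequently_mem_iff_neBot]
  have hcont : Tendsto (fun t : ℂ => fun i => a i + t * (b i - a i)) (𝓝 0) (𝓝 a) := by
    have : Continuous (fun t : ℂ => fun i => a i + t * (b i - a i)) := by fun_prop
    have h := this.tendsto 0
    simpa using h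
  refine hcont.frequently (hfr.mono fun t ht => ?_)
  show MvPolynomial.eval _ c ≠ 0
  rwa [← hq]

theorem pow_card_le_norm_prod (c : ℝ) (hc : 0 ≤ c) (m : Multiset ℂ) (h : ∀ r ∈ m, c ≤ ‖r‖) :
    c ^ m.card ≤ ‖(m.map (fun r => 0 - r)).prod‖ := by
  induction m using Multiset.induction_on with
  | empty => simp
  | cons a m ih =>
    rw [Multiset.card_cons, Multiset.map_cons, Multiset.prod_cons, norm_mul, pow_succ, mul_comm]
    have h1 := ih fun r hr => h r (Multiset.mem_cons_of_mem hr)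
    have h2 : c ≤ ‖0 - a‖ := by
      rw [zero_sub, norm_neg]
      exact h a (Multiset.mem_cons_self a m)
    exact mul_le_mul h2 h1 (pow_nonneg hc _) (norm_nonneg _)

/-- A monic polynomial has a root near `0` if its value at `0` is small. -/
theorem exists_root_norm_le (f : ℂ[X]) (hf : f.Monic) (hd : f.natDegree ≠ 0) :
    ∃ r, f.IsRoot r ∧ ‖r‖ ^ f.natDegree ≤ ‖f.eval 0‖ := by
  have hs : f.Splits := IsAlgClosed.splits f
  have hcard : f.roots.card = f.natDegree := (splits_iff_card_roots.1 hs)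
  have hprod : f.eval 0 = (f.roots.map (fun r => 0 - r)).prod := by
    have h1 := hs.eq_prod_roots_of_monic hf
    conv_lhs => rw [h1]
    rw [eval_multiset_prod, Multiset.map_map]
    congr 1
    apply Multiset.map_congr rfl
    intro r _
    simp
  have hne : f.roots.toFinset.Nonempty := by
    rw [Finset.nonempty_iff_ne_empty]
    intro h
    rw [Multiset.toFinset_eq_empty] at h
    rw [h] at hcard
    exact hd (by simpa using hcard.symm)
  obtain ⟨r, hr, hmin⟩ := Finset.exists_min_image f.roots.toFinset (fun r => ‖r‖) hne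
  refine ⟨r, isRoot_of_mem_roots (Multiset.mem_toFinset.1 hr), ?_⟩
  rw [hprod, ← hcard]
  exact pow_card_le_norm_prod _ (norm_nonneg r) _ fun x hx => hmin x (Multiset.mem_toFinset.2 hx)

end poly

theorem norm_le_of_monic_root (f : ℂ[X]) (hf : f.Monic) (K : ℝ)
    (h : ∀ i < f.natDegree, ‖f.coeff i‖ ≤ K) (x : ℂ) (hx : f.IsRoot x) : ‖x‖ ≤ K + 1 := by
  have h1 := IsRoot.norm_lt_cauchyBound hf.ne_zero hx
  rcases Nat.eq_zero_or_pos f.natDegree with h0 | h0
  · exfalso
    have h2 := hf.natDegree_eq_zero.1 h0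
    rw [h2, IsRoot, eval_one] at hx
    exact one_ne_zero hx
  have hK : 0 ≤ K := (norm_nonneg _).trans (h 0 h0)
  have h2 : (cauchyBound f : ℝ) ≤ K + 1 := by
    rw [cauchyBound, hf.leadingCoeff, nnnorm_one, div_one, NNReal.coe_add, NNReal.coe_one]
    gcongr
    have h3 : (Finset.range f.natDegree).sup (fun i => ‖f.coeff i‖₊) ≤ (⟨K, hK⟩ : NNReal) := by
      refine Finset.sup_le fun i hi => ?_
      exact h i (Finset.mem_range.1 hi)
    exact h3
  have h3 : ‖x‖ ≤ (cauchyBound f : ℝ) := by exact_mod_cast h1.le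
  exact h3.trans h2

section dense

variable {S : Type*} [CommRing S] [IsDomain S] [Algebra ℂ S]

/-- The pointwise topology on complex points. -/
noncomputable def ptNhd (p : S →ₐ[ℂ] ℂ) : Filter (S →ₐ[ℂ] ℂ) :=
  comap (fun π : S →ₐ[ℂ] ℂ => (π : S → ℂ)) (𝓝 (p : S → ℂ))

theorem tendsto_ptNhd_iff {ι : Type*} {l : Filter ι} {u : ι → (S →ₐ[ℂ] ℂ)} {p : S →ₐ[ℂ] ℂ} :
    Tendsto u l (ptNhd p) ↔ ∀ s, Tendsto (fun i => u i s) l (𝓝 (p s)) := by
  rw [ptNhd, tendsto_comap_iff, tendsto_pi_nhds]
  rfl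

theorem dense_points [Algebra.FiniteType ℂ S] (p : S →ₐ[ℂ] ℂ) {e : S} (he : e ≠ 0) :
    (ptNhd p ⊓ 𝓟 {π | π e ≠ 0}).NeBot := by
  classical
  obtain ⟨d, g, hg, hint⟩ := exists_integral_inj_algHom_of_fg ℂ S
  letI : Algebra (MvPolynomial (Fin d) ℂ) S := g.toRingHom.toAlgebra
  have hmap : ∀ a, algebraMap (MvPolynomial (Fin d) ℂ) S a = g a := fun _ => rfl
  have hi : Algebra.IsIntegral (MvPolynomial (Fin d) ℂ) S := ⟨hint⟩
  have hft : FaithfulSMul (MvPolynomial (Fin d) ℂ) S := by
    rw [faithfulSMul_iff_algebraMap_injective]; exact hg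
  have htow : IsScalarTower ℂ (MvPolynomial (Fin d) ℂ) S := IsScalarTower.of_algebraMap_eq
    fun c => by rw [hmap, AlgHom.commutes]
  -- a multiple of `e` in the polynomial ring
  obtain ⟨c, hc0, s', hcs⟩ : ∃ c : MvPolynomial (Fin d) ℂ, c ≠ 0 ∧ ∃ s', g c = e * s' := by
    have h1 := Ideal.comap_ne_bot_of_integral_mem (I := Ideal.span {e}) he
      (Ideal.mem_span_singleton_self e) (hi.isIntegral e)
    obtain ⟨c, hc, hc0⟩ := Submodule.exists_mem_ne_zero_of_ne_bot h1
    rw [Ideal.mem_comap, Ideal.mem_span_singleton] at hc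
    obtain ⟨s', hs'⟩ := hc
    exact ⟨c, hc0, s', hs'⟩
  let a : Fin d → ℂ := fun i => p (g (MvPolynomial.X i))
  have hpa : ∀ q, p (g q) = MvPolynomial.eval a q := by
    intro q
    have : (p.comp g).toRingHom = MvPolynomial.eval a := by
      apply MvPolynomial.ringHom_ext
      · intro r
        show p (g (MvPolynomial.C r)) = _
        rw [MvPolynomial.eval_C, ← MvPolynomial.algebraMap_eq, AlgHom.commutes, AlgHom.commutes]
        rfl
      · intro i
        show p (g (MvPolynomial.X i)) = _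
        rw [MvPolynomial.eval_X]
    exact congrArg (fun φ : MvPolynomial (Fin d) ℂ →+* ℂ => φ q) this
  -- finitely many points over `a`
  let F : Set (S →ₐ[ℂ] ℂ) := {π | ∀ q, π (g q) = p (g q)}
  have hF : F.Finite := by
    have h1 : ∀ s : S, ((fun π : S →ₐ[ℂ] ℂ => π s) '' F).Finite := by
      intro s
      obtain ⟨f, hf, hfs⟩ := hint s
      refine ((f.map ((p.comp g).toRingHom)).roots.toFinset.finite_toSet).subset ?_
      rintro _ ⟨π, hπ, rfl⟩
      simp only [Finset.mem_coe, Multiset.mem_toFinset]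
      rw [mem_roots (hf.map _).ne_zero, IsRoot, eval_map]
      have h2 : (p.comp g).toRingHom = (π : S →+* ℂ).comp g.toRingHom :=
        RingHom.ext fun q => (hπ q).symm
      rw [h2]
      have h3 := congrArg (π : S →+* ℂ) hfs
      rw [hom_eval₂, map_zero] at h3
      exact h3
    obtain ⟨G, hG⟩ := ‹Algebra.FiniteType ℂ S›.out
    have h2 : (Set.pi (Set.univ : Set (G : Set S)) fun s =>
        (fun π : S →ₐ[ℂ] ℂ => π (s : S)) '' F).Finite :=
      Set.Finite.pi fun s => h1 s
    refine Set.Finite.of_finite_image (f := fun π => fun s : (G : Set S) => π (s : S))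
      (h2.subset ?_) ?_
    · rintro _ ⟨π, hπ, rfl⟩ s _
      exact ⟨π, hπ, rfl⟩
    · intro π _ π' _ h
      apply AlgHom.ext_of_adjoin_eq_top hG
      intro x hx
      exact congrFun h ⟨x, hx⟩
  -- an element separating `p` from the other points over `a`
  obtain ⟨u, hu0, hu⟩ : ∃ u, p u = 0 ∧ ∀ π ∈ F, π u = 0 → π = p := by
    let T : Finset (S →ₐ[ℂ] ℂ) := hF.toFinset.erase p
    have h1 : ¬ ((RingHom.ker (p : S →+* ℂ) : Set S) ⊆
        ⋃ i ∈ (↑T : Set (S →ₐ[ℂ] ℂ)), RingHom.ker (i : S →+* ℂ)) := by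
      rw [Ideal.subset_union_prime p p (fun i _ _ _ => RingHom.ker_isPrime _)]
      rintro ⟨π, hπ, hle⟩
      have hmx : (RingHom.ker (p : S →+* ℂ)).IsMaximal :=
        RingHom.ker_isMaximal_of_surjective _ fun z => ⟨algebraMap ℂ S z, p.commutes z⟩
      have h2 := hmx.eq_of_le (RingHom.ker_ne_top _) hle
      have h3 : π = p := by
        ext s
        have h4 : s - algebraMap ℂ S (p s) ∈ RingHom.ker (p : S →+* ℂ) := by
          rw [RingHom.mem_ker]
          show p (s - algebraMap ℂ S (p s)) = 0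
          rw [map_sub, AlgHom.commutes]
          simp
        rw [h2, RingHom.mem_ker] at h4
        have h5 : π (s - algebraMap ℂ S (p s)) = 0 := h4
        rw [map_sub, AlgHom.commutes, sub_eq_zero] at h5
        exact h5
      exact (Finset.mem_erase.1 hπ).1 h3
    rw [Set.not_subset] at h1
    obtain ⟨u, hu1, hu2⟩ := h1
    refine ⟨u, hu1, fun π hπ h => ?_⟩
    by_contra hne
    apply hu2
    rw [Set.mem_iUnion₂]
    exact ⟨π, Finset.mem_coe.2 (Finset.mem_erase.2 ⟨hne, hF.mem_toFinset.2 hπ⟩), h⟩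
  -- minimal polynomial of `u`
  let f := minpoly (MvPolynomial (Fin d) ℂ) u
  have hfm : f.Monic := minpoly.monic (hi.isIntegral u)
  have hfd : f.natDegree ≠ 0 := (minpoly.natDegree_pos (hi.isIntegral u)).ne'
  have hdeg : ∀ z : Fin d → ℂ, (f.map (MvPolynomial.eval z)).natDegree = f.natDegree := fun z =>
    hfm.natDegree_map _
  have hroot : ∀ z : Fin d → ℂ, ∃ r, (f.map (MvPolynomial.eval z)).IsRoot r ∧
      ‖r‖ ^ f.natDegree ≤ ‖(f.map (MvPolynomial.eval z)).eval 0‖ := by
    intro z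
    have := exists_root_norm_le (f.map (MvPolynomial.eval z)) (hfm.map _) (by rw [hdeg]; exact hfd)
    rwa [hdeg] at this
  choose r hr1 hr2 using hroot
  -- points over `z`
  have hpt : ∀ z : Fin d → ℂ, ∃ π : S →ₐ[ℂ] ℂ, (∀ q, π (g q) = MvPolynomial.eval z q) ∧
      π u = r z := by
    intro z
    let ψ : (MvPolynomial (Fin d) ℂ)[X] →ₐ[ℂ] S :=
      { (Polynomial.aeval u : (MvPolynomial (Fin d) ℂ)[X] →ₐ[MvPolynomial (Fin d) ℂ] S).toRingHom
        with
        commutes' := fun c => by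
          show Polynomial.aeval u (algebraMap ℂ (MvPolynomial (Fin d) ℂ)[X] c) = _
          rw [IsScalarTower.algebraMap_apply ℂ (MvPolynomial (Fin d) ℂ) (MvPolynomial (Fin d) ℂ)[X],
            AlgHom.commutes, hmap, AlgHom.commutes] }
    have hψ : ∀ q, ψ q = Polynomial.aeval u q := fun _ => rfl
    let φ : (MvPolynomial (Fin d) ℂ)[X] →ₐ[ℂ] ℂ :=
      { (Polynomial.eval₂RingHom (MvPolynomial.eval z) (r z)) with
        commutes' := fun c => by
          show Polynomial.eval₂ (MvPolynomial.eval z) (r z)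
            (algebraMap ℂ (MvPolynomial (Fin d) ℂ)[X] c) = _
          rw [IsScalarTower.algebraMap_apply ℂ (MvPolynomial (Fin d) ℂ) (MvPolynomial (Fin d) ℂ)[X],
            Polynomial.algebraMap_eq, eval₂_C, MvPolynomial.algebraMap_eq, MvPolynomial.eval_C]
          rfl }
    have hφ : ∀ q, φ q = Polynomial.eval₂ (MvPolynomial.eval z) (r z) q := fun _ => rfl
    have hψi : ψ.toRingHom.IsIntegral := by
      have h1 : (ψ.toRingHom.comp (C : MvPolynomial (Fin d) ℂ →+* _)).IsIntegral := by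
        have h2 : ψ.toRingHom.comp (C : MvPolynomial (Fin d) ℂ →+* _) = g.toRingHom := by
          refine RingHom.ext fun q => ?_
          show Polynomial.aeval u (C q) = g q
          rw [aeval_C, hmap]
        rw [h2]
        exact hint
      exact RingHom.IsIntegral.tower_top _ _ h1
    obtain ⟨π, hπ⟩ := exists_point_over ψ hψi φ (by
      intro q hq
      rw [hψ] at hq
      obtain ⟨w, hw⟩ := minpoly.isIntegrallyClosed_dvd (hi.isIntegral u) hq
      rw [hφ, hw, eval₂_mul]
      have h1 := hr1 z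
      rw [IsRoot, eval_map] at h1
      rw [h1, zero_mul])
    refine ⟨π, fun q => ?_, ?_⟩
    · have := hπ (C q)
      rw [hψ, hφ, aeval_C, eval₂_C, hmap] at this
      exact this
    · have := hπ X
      rw [hψ, hφ, aeval_X, eval₂_X] at this
      exact this
  choose π hπ1 hπ2 using hpt
  -- ultrafilter limit
  have hNe := mv_dense c hc0 a
  let W : Ultrafilter (Fin d → ℂ) := Ultrafilter.of (𝓝 a ⊓ 𝓟 {z | MvPolynomial.eval z c ≠ 0})
  have hW : (W : Filter (Fin d → ℂ)) ≤ 𝓝 a ⊓ 𝓟 {z | MvPolynomial.eval z c ≠ 0} :=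
    Ultrafilter.of_le _
  have hWa : (W : Filter (Fin d → ℂ)) ≤ 𝓝 a := hW.trans inf_le_left
  have hWc : ∀ᶠ z in (W : Filter (Fin d → ℂ)), MvPolynomial.eval z c ≠ 0 :=
    (hW.trans inf_le_right) (mem_principal_self _)
  have hcontq : ∀ q : MvPolynomial (Fin d) ℂ, Tendsto (fun z => MvPolynomial.eval z q)
      (W : Filter (Fin d → ℂ)) (𝓝 (MvPolynomial.eval a q)) := fun q =>
    ((MvPolynomial.continuous_eval q).tendsto a).mono_left hWa
  have hlim : ∀ s : S, ∃ x, Tendsto (fun z => π z s) (W : Filter (Fin d → ℂ)) (𝓝 x) := by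
    intro s
    obtain ⟨h, hh, hhs⟩ := hint s
    let K : ℝ := ∑ i ∈ Finset.range h.natDegree, (‖MvPolynomial.eval a (h.coeff i)‖ + 1)
    have hK : ∀ᶠ z in (W : Filter (Fin d → ℂ)), ∀ i ∈ Finset.range h.natDegree,
        ‖MvPolynomial.eval z (h.coeff i)‖ ≤ ‖MvPolynomial.eval a (h.coeff i)‖ + 1 := by
      rw [Filter.eventually_all_finset]
      intro i _
      exact ((hcontq (h.coeff i)).norm.eventually_lt_const (lt_add_one _)).mono fun z hz => hz.le
    have hb : ∀ᶠ z in (W : Filter (Fin d → ℂ)), π z s ∈ Metric.closedBall (0 : ℂ) (K + 1) := by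
      filter_upwards [hK] with z hz
      rw [mem_closedBall_zero_iff]
      have h1 : (h.map (MvPolynomial.eval z)).IsRoot (π z s) := by
        rw [IsRoot, eval_map]
        have h2 : MvPolynomial.eval z = ((π z : S →+* ℂ).comp g.toRingHom) :=
          RingHom.ext fun q => (hπ1 z q).symm
        rw [h2]
        have h3 := congrArg (π z : S →+* ℂ) hhs
        rw [hom_eval₂, map_zero] at h3
        exact h3
      refine norm_le_of_monic_root _ (hh.map _) K ?_ _ h1
      intro i hi'
      rw [hh.natDegree_map] at hi'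
      rw [coeff_map]
      have h4 := hz i (Finset.mem_range.2 hi')
      refine h4.trans ?_
      exact Finset.single_le_sum (f := fun i => ‖MvPolynomial.eval a (h.coeff i)‖ + 1)
        (fun j _ => by positivity) (Finset.mem_range.2 hi')
    obtain ⟨x, -, hx⟩ := (isCompact_closedBall (0 : ℂ) (K + 1)).ultrafilter_le_nhds'
      (W.map fun z => π z s) hb
    exact ⟨x, hx⟩
  choose L hL using hlim
  let p'' : S →ₐ[ℂ] ℂ :=
    { toFun := L
      map_one' := tendsto_nhds_unique (hL 1) (by simp)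
      map_mul' := fun x y => tendsto_nhds_unique (hL (x * y)) (by
        simpa only [map_mul] using (hL x).mul (hL y))
      map_zero' := tendsto_nhds_unique (hL 0) (by simp)
      map_add' := fun x y => tendsto_nhds_unique (hL (x + y)) (by
        simpa only [map_add] using (hL x).add (hL y))
      commutes' := fun x => tendsto_nhds_unique (hL _) (by simp) }
  have hp'' : p'' = p := by
    apply hu
    · intro q
      refine tendsto_nhds_unique (hL (g q)) ?_
      simp only [hπ1, hpa]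
      exact hcontq q
    · refine tendsto_nhds_unique (hL u) ?_
      simp only [hπ2]
      rw [tendsto_zero_iff_norm_tendsto_zero]
      have h0 : Tendsto (fun z => ‖(f.map (MvPolynomial.eval z)).eval 0‖)
          (W : Filter (Fin d → ℂ)) (𝓝 0) := by
        have h1 : ∀ z : Fin d → ℂ, (f.map (MvPolynomial.eval z)).eval 0 =
            MvPolynomial.eval z (f.coeff 0) := by
          intro z
          rw [← coeff_zero_eq_eval_zero, coeff_map]
        simp only [h1]
        have h2 := (hcontq (f.coeff 0)).norm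
        have h3 : MvPolynomial.eval a (f.coeff 0) = 0 := by
          have h4 := congrArg p (minpoly.aeval (MvPolynomial (Fin d) ℂ) u)
          rw [map_zero, aeval_def] at h4
          have h5 : p (eval₂ (algebraMap (MvPolynomial (Fin d) ℂ) S) u f) =
              eval₂ (((p : S →+* ℂ)).comp (algebraMap (MvPolynomial (Fin d) ℂ) S)) (p u) f :=
            hom_eval₂ _ _ (p : S →+* ℂ) _
          rw [h5, hu0, eval₂_at_zero] at h4
          rw [← hpa]
          exact h4
        rw [h3, norm_zero] at h2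
        exact h2
      rw [Metric.tendsto_nhds]
      intro ε hε
      have h5 := (h0.eventually_lt_const (pow_pos hε f.natDegree))
      filter_upwards [h5] with z hz
      rw [dist_zero_right, norm_norm]
      exact lt_of_pow_lt_pow_left₀ _ hε.le ((hr2 z).trans_lt hz)
  have hT : Tendsto π (W : Filter (Fin d → ℂ)) (ptNhd p ⊓ 𝓟 {π | π e ≠ 0}) := by
    rw [tendsto_inf]
    refine ⟨?_, ?_⟩
    · rw [← hp'', tendsto_ptNhd_iff]
      exact hL
    · rw [tendsto_principal]
      filter_upwards [hWc] with z hz h0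
      apply hz
      rw [← hπ1, hcs, map_mul]
      have h0' : π z e = 0 := h0
      rw [h0', zero_mul]
  exact hT.neBot

end dense

section mv

variable {σ : Type*}

/-- `P` a prime ideal of `ℂ[x_i]` (finitely many variables), `f ∉ P`, `z ∈ Z(P)`: then `z` is in the
Euclidean closure of `{w ∈ Z(P) | f w ≠ 0}`. -/
theorem dens [Finite σ] (P : Ideal (MvPolynomial σ ℂ)) [hP : P.IsPrime]
    {f : MvPolynomial σ ℂ} (hf : f ∉ P) {z : σ → ℂ}
    (hz : ∀ g ∈ P, MvPolynomial.eval z g = 0) :
    z ∈ closure {w : σ → ℂ | (∀ g ∈ P, MvPolynomial.eval w g = 0) ∧ MvPolynomial.eval w f ≠ 0} := by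
  classical
  let S := MvPolynomial σ ℂ ⧸ P
  haveI : IsDomain S := Ideal.Quotient.isDomain P
  haveI : Algebra.FiniteType ℂ S :=
    Algebra.FiniteType.of_surjective (Ideal.Quotient.mkₐ ℂ P) Ideal.Quotient.mk_surjective
  let ev : (σ → ℂ) → MvPolynomial σ ℂ →ₐ[ℂ] ℂ := fun w => MvPolynomial.aeval w
  have hev : ∀ w g, ev w g = MvPolynomial.eval w g := fun w g => by
    show MvPolynomial.aeval w g = _
    rw [MvPolynomial.aeval_eq_eval]
  let p : S →ₐ[ℂ] ℂ := Ideal.Quotient.liftₐ P (ev z) (fun g hg => by rw [hev]; exact hz g hg)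
  have hp : ∀ g, p (Ideal.Quotient.mk P g) = MvPolynomial.eval z g := fun g => by
    show (Ideal.Quotient.liftₐ P (ev z) _) (Ideal.Quotient.mk P g) = _
    rw [← hev]
    rfl
  have he : (Ideal.Quotient.mk P f : S) ≠ 0 := by
    rw [Ne, Ideal.Quotient.eq_zero_iff_mem]
    exact hf
  have hN := dense_points p he
  -- the map `π ↦ (π x_i)_i`
  let pt : (S →ₐ[ℂ] ℂ) → (σ → ℂ) := fun π i => π (Ideal.Quotient.mk P (MvPolynomial.X i))
  have hpt : ∀ π g, π (Ideal.Quotient.mk P g) = MvPolynomial.eval (pt π) g := by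
    intro π g
    rw [← hev]
    have h1 : (π.comp (Ideal.Quotient.mkₐ ℂ P)) = ev (pt π) := by
      apply MvPolynomial.algHom_ext
      intro i
      show π (Ideal.Quotient.mk P (MvPolynomial.X i)) = MvPolynomial.aeval (pt π) (MvPolynomial.X i)
      rw [MvPolynomial.aeval_X]
    exact congrArg (fun φ : MvPolynomial σ ℂ →ₐ[ℂ] ℂ => φ g) h1
  have hpz : pt p = z := by
    funext i
    show p (Ideal.Quotient.mk P (MvPolynomial.X i)) = z i
    rw [hp, MvPolynomial.eval_X]
  have htend : Tendsto pt (ptNhd p) (𝓝 z) := by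
    rw [tendsto_pi_nhds]
    intro i
    have h1 := (tendsto_ptNhd_iff (l := ptNhd p) (u := id) (p := p)).1 tendsto_id
      (Ideal.Quotient.mk P (MvPolynomial.X i))
    rw [hp, MvPolynomial.eval_X] at h1
    exact h1
  rw [mem_closure_iff_clusterPt, ClusterPt]
  refine (hN.map pt).mono ?_
  refine le_inf ((map_mono inf_le_left).trans htend) ?_
  rw [le_principal_iff, mem_map]
  filter_upwards [mem_inf_of_right (mem_principal_self _)] with π hπ
  refine ⟨fun g hg => ?_, ?_⟩
  · rw [← hpt, Ideal.Quotient.eq_zero_iff_mem.2 hg, map_zero]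
  · rw [← hpt]
    exact hπ

/-- Sequence version of `dens`. -/
theorem dens_seq [Finite σ] (P : Ideal (MvPolynomial σ ℂ)) [hP : P.IsPrime]
    {f : MvPolynomial σ ℂ} (hf : f ∉ P) {z : σ → ℂ}
    (hz : ∀ g ∈ P, MvPolynomial.eval z g = 0) :
    ∃ w : ℕ → σ → ℂ, (∀ k, (∀ g ∈ P, MvPolynomial.eval (w k) g = 0) ∧
      MvPolynomial.eval (w k) f ≠ 0) ∧ Tendsto w atTop (𝓝 z) := by
  haveI := Fintype.ofFinite σ
  exact mem_closure_iff_seq_limit.1 (dens P hf hz)

/-- Finitely many elements to avoid at once. -/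
theorem dens_finset [Finite σ] (P : Ideal (MvPolynomial σ ℂ)) [hP : P.IsPrime]
    (F : Finset (MvPolynomial σ ℂ)) (hF : ∀ f ∈ F, f ∉ P) {z : σ → ℂ}
    (hz : ∀ g ∈ P, MvPolynomial.eval z g = 0) :
    z ∈ closure {w : σ → ℂ | (∀ g ∈ P, MvPolynomial.eval w g = 0) ∧
      ∀ f ∈ F, MvPolynomial.eval w f ≠ 0} := by
  classical
  have h : (∏ f ∈ F, f) ∉ P := by
    intro h
    obtain ⟨f, hf, hfP⟩ := (hP.prod_mem_iff).1 h
    exact hF f hf hfP
  refine closure_mono ?_ (dens P h hz)
  rintro w ⟨h1, h2⟩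
  refine ⟨h1, fun f hf h0 => h2 ?_⟩
  rw [map_prod]
  exact Finset.prod_eq_zero hf h0

end mv

end Vale.Agent.P271.H112
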