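import Vale.Agent.P271.H112.Jet
import Vale.Agent.P271.H207.Lead
import Vale.Agent.P271.Sch.Hub

/-!
# P271 / JET: the uniform jet degree for power series valued maps and for a cone

* `ordIdeal K d N` : power series of order `≥ N`;
* `exists_approx` : if the coordinates `X j` are quotients of two sections of the same degree, then
  every power series is such a quotient modulo order `> N`;
* `exists_jet_degree` : ONE degree `r₁` for all points of the cone and all Taylor expansions;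
* `exists_lead_degree` : in every degree `M ≥ r₁` all exponents of degree `≤ N` are leading exponents.
-/

set_option linter.all false

open Finset

namespace Vale.Agent.P271.H112

open MvPowerSeries Vale.Agent.P271.F507 Vale.Agent.P271.H207

section PS

variable {K : Type*} [Field K] {d : ℕ}

/-- The ideal of the power series of order at least `N`. -/
noncomputable def ordIdeal (K : Type*) [Field K] (d N : ℕ) : Ideal (MvPowerSeries (Fin d) K) where
  carrier := {f | (N : ℕ∞) ≤ f.order}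
  add_mem' {a b} ha hb := le_trans (le_min ha hb) min_order_le_add
  zero_mem' := by
    change (N : ℕ∞) ≤ (0 : MvPowerSeries (Fin d) K).order
    rw [order_zero]; exact le_top
  smul_mem' c f hf := by
    change (N : ℕ∞) ≤ (c * f).order
    exact le_trans (le_trans hf le_add_self) le_order_mul

theorem mem_ordIdeal {N : ℕ} {f : MvPowerSeries (Fin d) K} :
    f ∈ ordIdeal K d N ↔ (N : ℕ∞) ≤ f.order := Iff.rfl

/-- the constant coefficient as an algebra homomorphism -/
noncomputable def evPS (K : Type*) [Field K] (d : ℕ) : MvPowerSeries (Fin d) K →ₐ[K] K :=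
  { (constantCoeff (σ := Fin d) (R := K)) with
    commutes' := fun c => by
      change constantCoeff (C c) = c
      exact constantCoeff_C c }

theorem evPS_apply (f : MvPowerSeries (Fin d) K) : evPS K d f = constantCoeff f := rfl

theorem ker_pow_le (N : ℕ) : (RingHom.ker (evPS K d)) ^ N ≤ ordIdeal K d N := by
  induction N with
  | zero =>
    intro f _
    rw [mem_ordIdeal]
    simp
  | succ N ih =>
    rw [pow_succ, Ideal.mul_le]
    intro f hf g hg
    rw [mem_ordIdeal]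
    have h1 : (N : ℕ∞) ≤ f.order := ih hf
    have h2 : (1 : ℕ∞) ≤ g.order := by
      rw [one_le_order_iff_constCoeff_eq_zero]
      exact hg
    refine le_trans ?_ le_order_mul
    push_cast
    exact add_le_add h1 h2

variable {R : Type*} [CommRing R] [Algebra K R] (A : ℕ → Submodule K R) [GradedAlgebra A]

/-- `f` is the quotient of two sections of the same degree, the second one not vanishing at the
point. -/
def IsFrac (τ : R →ₐ[K] MvPowerSeries (Fin d) K) (f : MvPowerSeries (Fin d) K) : Prop :=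
  ∃ (M : ℕ) (s g : R), s ∈ A M ∧ g ∈ A M ∧ constantCoeff (τ g) ≠ 0 ∧ τ s = f * τ g

theorem isFrac_const (τ : R →ₐ[K] MvPowerSeries (Fin d) K) (c : K) :
    IsFrac A τ (algebraMap K _ c) := by
  refine ⟨0, algebraMap K R c, 1, ?_, SetLike.one_mem_graded A, ?_, ?_⟩
  · exact SetLike.algebraMap_mem_graded A c
  · rw [map_one, map_one]; exact one_ne_zero
  · rw [map_one, mul_one, AlgHom.commutes]

theorem isFrac_add {τ : R →ₐ[K] MvPowerSeries (Fin d) K} {f f' : MvPowerSeries (Fin d) K}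
    (h : IsFrac A τ f) (h' : IsFrac A τ f') : IsFrac A τ (f + f') := by
  obtain ⟨M, s, g, hs, hg, h0, h1⟩ := h
  obtain ⟨M', s', g', hs', hg', h0', h1'⟩ := h'
  refine ⟨M + M', s * g' + g * s', g * g', ?_, SetLike.mul_mem_graded hg hg', ?_, ?_⟩
  · exact (A _).add_mem (SetLike.mul_mem_graded hs hg') (SetLike.mul_mem_graded hg hs')
  · rw [map_mul, map_mul]; exact mul_ne_zero h0 h0'
  · rw [map_add, map_mul, map_mul, map_mul, h1, h1']; ring

theorem isFrac_mul {τ : R →ₐ[K] MvPowerSeries (Fin d) K} {f f' : MvPowerSeries (Fin d) K}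
    (h : IsFrac A τ f) (h' : IsFrac A τ f') : IsFrac A τ (f * f') := by
  obtain ⟨M, s, g, hs, hg, h0, h1⟩ := h
  obtain ⟨M', s', g', hs', hg', h0', h1'⟩ := h'
  refine ⟨M + M', s * s', g * g', SetLike.mul_mem_graded hs hs', SetLike.mul_mem_graded hg hg',
    ?_, ?_⟩
  · rw [map_mul, map_mul]; exact mul_ne_zero h0 h0'
  · rw [map_mul, map_mul, h1, h1']; ring

/-- every polynomial is a quotient if the coordinates are -/
theorem isFrac_coe (τ : R →ₐ[K] MvPowerSeries (Fin d) K)
    (hX : ∀ j, IsFrac A τ (X j : MvPowerSeries (Fin d) K)) (p : MvPolynomial (Fin d) K) :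
    IsFrac A τ (p : MvPowerSeries (Fin d) K) := by
  induction p using MvPolynomial.induction_on with
  | C a =>
    rw [MvPolynomial.coe_C]
    exact isFrac_const A τ a
  | add p q hp hq =>
    rw [MvPolynomial.coe_add]
    exact isFrac_add A hp hq
  | mul_X p j hp =>
    rw [MvPolynomial.coe_mul, MvPolynomial.coe_X]
    exact isFrac_mul A hp (hX j)

/-- truncation -/
theorem exists_poly (N : ℕ) (f : MvPowerSeries (Fin d) K) :
    ∃ p : MvPolynomial (Fin d) K, f - (p : MvPowerSeries (Fin d) K) ∈ ordIdeal K d (N + 1) := by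
  classical
  refine ⟨trunc' K (Finsupp.equivFunOnFinite.symm fun _ => N) f, ?_⟩
  rw [mem_ordIdeal]
  refine nat_le_order fun m hm => ?_
  rw [map_sub, MvPolynomial.coeff_coe, coeff_trunc', if_pos, sub_self]
  intro j
  rw [Finsupp.equivFunOnFinite_symm_apply_apply]
  have h1 : m j ≤ Finsupp.degree m := Finsupp.le_degree j m
  omega

/-- The hypothesis of `exists_jet_degree` from the coordinates. -/
theorem exists_approx (τ : R →ₐ[K] MvPowerSeries (Fin d) K)
    (hX : ∀ j, IsFrac A τ (X j : MvPowerSeries (Fin d) K)) (N : ℕ)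
    (f : MvPowerSeries (Fin d) K) :
    ∃ (M : ℕ) (s g : R), s ∈ A M ∧ g ∈ A M ∧ constantCoeff (τ g) ≠ 0 ∧
      τ s - f * τ g ∈ ordIdeal K d (N + 1) := by
  obtain ⟨p, hp⟩ := exists_poly N f
  obtain ⟨M, s, g, hs, hg, h0, h1⟩ := isFrac_coe A τ hX p
  refine ⟨M, s, g, hs, hg, h0, ?_⟩
  have : τ s - f * τ g = -(τ g) * (f - (p : MvPowerSeries (Fin d) K)) := by rw [h1]; ring
  rw [this]
  exact Ideal.mul_mem_left _ _ hp

end PS

section Cone

variable {K : Type*} [Field K] {R : Type*} [CommRing R] [Algebra K R]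
  (A : ℕ → Submodule K R) [GradedAlgebra A]

/-- Finitely many pairs `(e, e')` of homogeneous elements of degrees `k`, `k + 1` suffice. -/
theorem exists_finset_pairs [IsNoetherianRing R] :
    ∃ T : Finset (ℕ × R × R), (∀ q ∈ T, q.2.1 ∈ A q.1 ∧ q.2.2 ∈ A (q.1 + 1)) ∧
      ∀ χ : R →ₐ[K] K, (∃ k, ∃ e ∈ A k, ∃ e' ∈ A (k + 1), χ e ≠ 0 ∧ χ e' ≠ 0) →
        ∃ q ∈ T, χ q.2.1 ≠ 0 ∧ χ q.2.2 ≠ 0 := by
  classical
  set S : Set (ℕ × R × R) := {q | q.2.1 ∈ A q.1 ∧ q.2.2 ∈ A (q.1 + 1)} with hS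
  set m : ℕ × R × R → R := fun q => q.2.1 * q.2.2 with hm
  obtain ⟨s', hs', hspan⟩ := Submodule.fg_span_iff_fg_span_finset_subset (m '' S) |>.1
    (IsNoetherian.noetherian (Ideal.span (m '' S)))
  have hchoose : ∀ y : s', ∃ q ∈ S, m q = y := fun y => hs' y.2
  choose f hf hfm using hchoose
  refine ⟨Finset.univ.image f, ?_, ?_⟩
  · intro q hq
    obtain ⟨y, -, rfl⟩ := Finset.mem_image.1 hq
    exact hf y
  · rintro χ ⟨k, e, he, e', he', h1, h2⟩
    by_contra hcon
    push Not at hcon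
    have hker : Submodule.span R (s' : Set R) ≤ RingHom.ker χ := by
      rw [Submodule.span_le]
      intro y hy
      have h3 := hcon (f ⟨y, hy⟩) (Finset.mem_image_of_mem _ (Finset.mem_univ _))
      change χ y = 0
      have h4 : χ (m (f ⟨y, hy⟩)) = 0 := by
        rw [hm, map_mul]
        by_cases h5 : χ (f ⟨y, hy⟩).2.1 = 0
        · rw [h5, zero_mul]
        · rw [h3 h5, mul_zero]
      rw [hfm] at h4
      exact h4
    have h6 : e * e' ∈ Submodule.span R (s' : Set R) := by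
      rw [← hspan]
      exact Submodule.subset_span ⟨(k, e, e'), ⟨he, he'⟩, rfl⟩
    have h7 : χ (e * e') = 0 := hker h6
    rw [map_mul] at h7
    rcases mul_eq_zero.1 h7 with h | h
    · exact h1 h
    · exact h2 h

/-- homogeneous generators -/
theorem exists_gens [hft : Algebra.FiniteType K R] :
    ∃ (ι : Type) (_ : Fintype ι) (x : ι → R) (w : ι → ℕ), (∀ l, x l ∈ A (w l)) ∧
      Algebra.adjoin K (Set.range x) = ⊤ := by
  classical
  obtain ⟨F, hF⟩ := hft.out
  let ι₀ := Σ (x : F), (DirectSum.decompose A x.1).support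
  let x : ι₀ → R := fun i => ((DirectSum.decompose A) i.1 i.2 : R)
  let e := Fintype.equivFin ι₀
  refine ⟨Fin (Fintype.card ι₀), inferInstance, fun l => x (e.symm l),
    fun l => (e.symm l).2, fun l => SetLike.coe_mem _, ?_⟩
  rw [← top_le_iff, ← hF, Algebra.adjoin_le_iff]
  intro s hs
  rw [← DirectSum.sum_support_decompose A s]
  refine sum_mem fun n hn => Algebra.subset_adjoin ?_
  refine ⟨e ⟨⟨s, hs⟩, ⟨n, hn⟩⟩, ?_⟩
  simp [x]

/-- **JET**: one degree `r₁` for all points and all power series expansions. -/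
theorem exists_jet_degree [hft : Algebra.FiniteType K R] (N : ℕ) :
    ∃ r₁ : ℕ, ∀ (d : ℕ) (τ : R →ₐ[K] MvPowerSeries (Fin d) K),
      (∃ k, ∃ e ∈ A k, ∃ e' ∈ A (k + 1), constantCoeff (τ e) ≠ 0 ∧ constantCoeff (τ e') ≠ 0) →
      (∀ f, ∃ (M : ℕ) (s g : R), s ∈ A M ∧ g ∈ A M ∧ constantCoeff (τ g) ≠ 0 ∧
        τ s - f * τ g ∈ ordIdeal K d (N + 1)) →
      ∀ M, r₁ ≤ M → ∀ f, ∃ s g : R, s ∈ A M ∧ g ∈ A M ∧ constantCoeff (τ g) ≠ 0 ∧
        τ s - f * τ g ∈ ordIdeal K d (N + 1) := by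
  classical
  haveI : IsNoetherianRing R := Algebra.FiniteType.isNoetherianRing K R
  obtain ⟨T, hT, hT'⟩ := exists_finset_pairs (K := K) A
  obtain ⟨ι, _, x, w, hx, hgen⟩ := exists_gens (K := K) A
  set W : ℕ := Finset.univ.sup w with hW
  refine ⟨T.sup fun q => N * (W * (q.1 + 1)) + q.1 ^ 2, ?_⟩
  intro d τ hpt hsurj M hM f
  obtain ⟨q, hq, h1, h2⟩ := hT' ((evPS K d).comp τ) hpt
  refine jets_abstract A x w hx hgen W (fun l => Finset.le_sup (Finset.mem_univ l)) N (evPS K d) ?_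
    (ordIdeal K d (N + 1)) (ker_pow_le (N + 1)) τ (hT q hq).1 (hT q hq).2 h1 h2 hsurj M ?_ f
  · intro u hu
    rw [isUnit_iff_constantCoeff]
    exact isUnit_iff_ne_zero.2 hu
  · exact le_trans (Finset.le_sup (f := fun q : ℕ × R × R => N * (W * (q.1 + 1)) + q.1 ^ 2) hq) hM

/-- **Leading exponents**: in every degree `M ≥ r₁` every exponent of degree `≤ N` occurs as a
leading exponent, for all points and all power series expansions. -/
theorem exists_lead_degree [hft : Algebra.FiniteType K R] (N : ℕ) :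
    ∃ r₁ : ℕ, ∀ (d : ℕ) (τ : R →ₐ[K] MvPowerSeries (Fin d) K),
      (∃ k, ∃ e ∈ A k, ∃ e' ∈ A (k + 1), constantCoeff (τ e) ≠ 0 ∧ constantCoeff (τ e') ≠ 0) →
      (∀ f, ∃ (M : ℕ) (s g : R), s ∈ A M ∧ g ∈ A M ∧ constantCoeff (τ g) ≠ 0 ∧
        τ s - f * τ g ∈ ordIdeal K d (N + 1)) →
      ∀ M, r₁ ≤ M → ∀ ε : Fin d → ℕ, deg ε ≤ N → ∃ s ∈ A M, IsLead1 (τ s) ε := by
  classical
  obtain ⟨r₁, hr⟩ := exists_jet_degree (K := K) A N
  refine ⟨r₁, fun d τ hpt hsurj M hM ε hε => ?_⟩
  obtain ⟨s, g, hs, hg, h0, hsg⟩ := hr d τ hpt hsurj M hM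
    (monomial (Finsupp.equivFunOnFinite.symm ε) (1 : K))
  refine ⟨s, hs, ?_⟩
  have hcoef : ∀ η : Fin d → ℕ, deg η ≤ N →
      coeff (Finsupp.equivFunOnFinite.symm η) (τ s) =
        coeff (Finsupp.equivFunOnFinite.symm η)
          (monomial (Finsupp.equivFunOnFinite.symm ε) (1 : K) * τ g) := by
    intro η hη
    have h1 : coeff (Finsupp.equivFunOnFinite.symm η)
        (τ s - monomial (Finsupp.equivFunOnFinite.symm ε) (1 : K) * τ g) = 0 := by
      refine coeff_of_lt_order (lt_of_lt_of_le ?_ hsg)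
      have h2 : Finsupp.degree (Finsupp.equivFunOnFinite.symm η) = deg η := by
        rw [Finsupp.degree_eq_sum]
        rfl
      rw [h2]
      exact_mod_cast Nat.lt_succ_of_le hη
    rw [map_sub] at h1
    exact sub_eq_zero.1 h1
  constructor
  · rw [hcoef ε hε, coeff_monomial_mul, if_pos le_rfl, tsub_self, one_mul]
    exact h0
  · intro η' hη'
    by_cases hd : deg η' ≤ N
    · rw [hcoef η' hd, coeff_monomial_mul] at hη'
      have h1 : Finsupp.equivFunOnFinite.symm ε ≤ Finsupp.equivFunOnFinite.symm η' := by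
        by_contra h
        rw [if_neg h] at hη'
        exact hη' rfl
      have h2 : ∀ j, ε j ≤ η' j := fun j => h1 j
      obtain ⟨ζ, hζ⟩ : ∃ ζ : Fin d → ℕ, η' = ε + ζ :=
        ⟨fun j => η' j - ε j, by funext j; have := h2 j; simp; omega⟩
      rw [key1_le_iff, hζ, deg_add]
      rcases Nat.eq_zero_or_pos (deg ζ) with hz | hz
      · right
        have hζ0 : ζ = 0 := by
          funext j
          have h3 : ζ j ≤ deg ζ := by
            rw [deg]; exact Finset.single_le_sum (f := ζ) (fun _ _ => Nat.zero_le _) (Finset.mem_univ j)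
          simp only [Pi.zero_apply]
          omega
        rw [hζ0, add_zero]
        exact ⟨by rw [show deg (0 : Fin d → ℕ) = 0 by rw [← hζ0]; exact hz]; rfl, le_rfl⟩
      · left; omega
    · rw [key1_le_iff]
      left; omega

/-- The algebra homomorphism given by a multiplicative family of linear maps. -/
noncomputable def ofFamily {S : Type*} [CommRing S] [Algebra K S] (T : ∀ M, A M →ₗ[K] S)
    (hone : T 0 ⟨1, SetLike.one_mem_graded A⟩ = 1)
    (hmul : ∀ (M M' : ℕ) (g : A M) (s : A M'),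
      T (M + M') ⟨(g : R) * (s : R), SetLike.mul_mem_graded g.2 s.2⟩ = T M g * T M' s) :
    R →ₐ[K] S :=
  (DirectSum.toAlgebra K (fun i => A i) T hone (fun {i j} a b => hmul i j a b)).comp
    (DirectSum.decomposeAlgEquiv A).toAlgHom

theorem ofFamily_apply {S : Type*} [CommRing S] [Algebra K S] (T : ∀ M, A M →ₗ[K] S)
    (hone : T 0 ⟨1, SetLike.one_mem_graded A⟩ = 1)
    (hmul : ∀ (M M' : ℕ) (g : A M) (s : A M'),
      T (M + M') ⟨(g : R) * (s : R), SetLike.mul_mem_graded g.2 s.2⟩ = T M g * T M' s)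
    {M : ℕ} (s : A M) : ofFamily A T hone hmul (s : R) = T M s := by
  have h1 : (DirectSum.decomposeAlgEquiv A) (s : R) = DirectSum.of (fun i => A i) M s := by
    rw [DirectSum.decomposeAlgEquiv_apply]
    exact DirectSum.decompose_coe A s
  have h2 : ofFamily A T hone hmul (s : R) = DirectSum.toAlgebra K (fun i => A i) T hone
    (fun {i j} a b => hmul i j a b) ((DirectSum.decomposeAlgEquiv A) (s : R)) := rfl
  rw [h2, h1]
  exact DirectSum.toSemiring_of (fun i => (T i).toAddMonoidHom) hone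
    (fun {i j} a b => hmul i j a b) M s

/-- **Leading exponents**, version for a multiplicative family `T M : A M → K[[x]]`. -/
theorem exists_lead_family [hft : Algebra.FiniteType K R] (N : ℕ) :
    ∃ r₁ : ℕ, ∀ (d : ℕ) (T : ∀ M, A M →ₗ[K] MvPowerSeries (Fin d) K)
      (_ : T 0 ⟨1, SetLike.one_mem_graded A⟩ = 1)
      (_ : ∀ (M M' : ℕ) (g : A M) (s : A M'),
        T (M + M') ⟨(g : R) * (s : R), SetLike.mul_mem_graded g.2 s.2⟩ = T M g * T M' s),
      (∃ (k : ℕ) (e : A k) (e' : A (k + 1)), constantCoeff (T k e) ≠ 0 ∧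
        constantCoeff (T (k + 1) e') ≠ 0) →
      (∀ j : Fin d, ∃ (M : ℕ) (s g : A M), constantCoeff (T M g) ≠ 0 ∧ T M s = X j * T M g) →
      ∀ M, r₁ ≤ M → ∀ ε : Fin d → ℕ, deg ε ≤ N → ∃ s : A M, IsLead1 (T M s) ε := by
  obtain ⟨r₁, hr⟩ := exists_lead_degree (K := K) A N
  refine ⟨r₁, fun d T hone hmul hpt hX M hM ε hε => ?_⟩
  set τ := ofFamily A T hone hmul with hτ
  have hτa : ∀ {M : ℕ} (s : A M), τ (s : R) = T M s := fun s => ofFamily_apply A T hone hmul s
  have hp : ∃ k, ∃ e ∈ A k, ∃ e' ∈ A (k + 1), constantCoeff (τ e) ≠ 0 ∧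
      constantCoeff (τ e') ≠ 0 := by
    obtain ⟨k, e, e', h1, h2⟩ := hpt
    exact ⟨k, e, e.2, e', e'.2, by rw [hτa]; exact h1, by rw [hτa]; exact h2⟩
  have hX' : ∀ j, IsFrac A τ (X j : MvPowerSeries (Fin d) K) := by
    intro j
    obtain ⟨M, s, g, h1, h2⟩ := hX j
    exact ⟨M, s, g, s.2, g.2, by rw [hτa]; exact h1, by rw [hτa, hτa]; exact h2⟩
  obtain ⟨s, hs, hlead⟩ := hr d τ hp (exists_approx A τ hX' N) M hM ε hε
  exact ⟨⟨s, hs⟩, by rw [← hτa]; exact hlead⟩

end Cone

section GCone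

open Sch

variable {n : ℕ} {C : GCone n}

/-- a pair of homogeneous elements of degrees `k`, `k + 1` not vanishing at the point -/
theorem exists_pair (φ : C.Pt) (hφ : GCone.NV φ) :
    ∃ k, ∃ e ∈ C.A k, ∃ e' ∈ C.A (k + 1), φ e ≠ 0 ∧ φ e' ≠ 0 := by
  have hmax : (RingHom.ker φ).IsMaximal :=
    RingHom.ker_isMaximal_of_surjective φ (fun c => ⟨algebraMap ℂ C.R c, by simp⟩)
  obtain ⟨k, s, hs, s', hs', h1, h2⟩ := C.free (RingHom.ker φ) (by
    obtain ⟨k, hk, s, hs, h⟩ := hφ
    exact ⟨k, hk, s, hs, fun h' => h h'⟩)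
  exact ⟨k, s, hs, s', hs', fun h => h1 h, fun h => h2 h⟩

/-- **JET for a cone**: one degree `r₁` such that in all degrees `M ≥ r₁`, at all points different
from the vertex and for all power series expansions `τ` (with the coordinates `X j` quotients of
sections of the same degree) all exponents of degree `≤ N` are leading exponents. -/
theorem cone_lead (C : GCone n) (N : ℕ) :
    ∃ r₁ : ℕ, ∀ (d : ℕ) (τ : C.R →ₐ[ℂ] MvPowerSeries (Fin d) ℂ),
      GCone.NV ((evPS ℂ d).comp τ) → (∀ j, IsFrac C.A τ (X j : MvPowerSeries (Fin d) ℂ)) →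
      ∀ M, r₁ ≤ M → ∀ ε : Fin d → ℕ, deg ε ≤ N → ∃ s ∈ C.A M, IsLead1 (τ s) ε := by
  haveI := C.finiteType
  obtain ⟨r₁, hr⟩ := exists_lead_degree (K := ℂ) C.A N
  refine ⟨r₁, fun d τ hpt hX M hM ε hε => hr d τ ?_ (exists_approx C.A τ hX N) M hM ε hε⟩
  obtain ⟨k, e, he, e', he', h1, h2⟩ := exists_pair _ hpt
  exact ⟨k, e, he, e', he', h1, h2⟩

/-- JET for a cone, version for multiplicative families `T M : A M → ℂ[[x]]`. -/
theorem cone_lead_family (C : GCone n) (N : ℕ) :
    ∃ r₁ : ℕ, ∀ (d : ℕ) (T : ∀ M, C.A M →ₗ[ℂ] MvPowerSeries (Fin d) ℂ)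
      (_ : T 0 ⟨1, SetLike.one_mem_graded C.A⟩ = 1)
      (_ : ∀ (M M' : ℕ) (g : C.A M) (s : C.A M'),
        T (M + M') ⟨(g : C.R) * (s : C.R), SetLike.mul_mem_graded g.2 s.2⟩ = T M g * T M' s),
      (∃ (k : ℕ) (e : C.A k) (e' : C.A (k + 1)), constantCoeff (T k e) ≠ 0 ∧
        constantCoeff (T (k + 1) e') ≠ 0) →
      (∀ j : Fin d, ∃ (M : ℕ) (s g : C.A M), constantCoeff (T M g) ≠ 0 ∧ T M s = X j * T M g) →
      ∀ M, r₁ ≤ M → ∀ ε : Fin d → ℕ, deg ε ≤ N → ∃ s : C.A M, IsLead1 (T M s) ε := by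
  haveI := C.finiteType
  exact exists_lead_family (K := ℂ) C.A N

end GCone

end Vale.Agent.P271.H112
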