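import Vale.Agent.P271.H112.JetHom
import Vale.Agent.P271.H207.PtData
import Vale.Agent.P271.Gen.HomMain
import Vale.Agent.P271.H70.Slice
import Vale.Agent.P271.H70.TrHilb

/-!
# P271 / K3OUT glue: `PtData` at all general points of the centre, with `hcube` in one degree `r₁`

`exists_ptData` : helper433's general point package + helper70's slice + helper207's `PtData` +
JET.  The degree `r₁` depends only on the cone (and on the bound `D` for the dimension).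
-/

set_option linter.all false

open Finset

namespace Vale.Agent.P271.H112

open MvPowerSeries Vale.Agent.P271.F507 Vale.Agent.P271.H207 Vale.Agent.P271.H84
  Vale.Agent.P271.Gen Vale.Agent.P271.H70 Vale.Agent.P271.Drop Vale.Agent.P271.Deg Sch

section

variable {k R : Type*} [Field k] [CommRing R] [Algebra k R]

/-- the inclusion of a step of the filtration in the valuation ideal -/
noncomputable def incB [IsDomain R] {v : R → ℝ} (h : RVal v) (V : Submodule k R) (a : ℝ) :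
    (h.wt V).sub a →ₗ[k] h.b a where
  toFun x := ⟨((x : V) : R), (h.mem_wt_sub V a x).1 x.2⟩
  map_add' _ _ := rfl
  map_smul' _ _ := rfl

/-- `PtData` from the homogeneous general point package. -/
noncomputable def ptDataOf [IsDomain R] (A : ℕ → Submodule k R) {v : R → ℝ} (h : RVal v) {d : ℕ}
    {e e' : R} {φ : R →ₐ[k] k} {X : Fin d → R} {τ : R →ₐ[k] MvPowerSeries (Fin d) k}
    (hpt : HomPoint A h.P e e' φ X τ) (s : Finset ℝ) (r : ℝ → ℕ)
    (θ : ∀ a : ℝ, h.b a →ₗ[k] (Fin (r a) → MvPowerSeries (Fin d) k))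
    (hθ : ∀ a ∈ s, HomTheta A (h.b a) (h.bgt a) φ X τ (θ a)) :
    PtData A h φ (s : Set ℝ) d where
  τ M := τ.toLinearMap.comp (A M).subtype
  r := r
  θ M a := (θ a).comp (incB h (A M) a)
  τ_ker M f := hpt.ker_iff M f f.2
  θ_ker M a ha x := by
    rw [h.mem_wt_subGt]
    exact (hθ a ha).ker_iff M (incB h (A M) a x) (x : A M).2
  θ_mul M M' a ha g x t ht := by
    have h1 := (hθ a ha).smul (g : R) (incB h (A M) a x)
    have h2 : incB h (A (M + M')) a t = (g : R) • incB h (A M) a x := Subtype.ext ht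
    change θ a (incB h (A (M + M')) a t) = _
    rw [h2, h1]
    rfl
  X := X
  X_zero := hpt.X_zero
  decomp M a ha x E hE := by
    obtain ⟨N, c, _, hc, hmem⟩ := (hθ a ha).order M (incB h (A M) a x) (x : A M).2 E hE
    exact ⟨c, hc, hmem⟩

end

theorem deg_le_of_le_one {d : ℕ} {ε : Fin d → ℕ} (hε : ∀ j, ε j ≤ 1) : deg ε ≤ d := by
  rw [deg]
  calc ∑ i, ε i ≤ ∑ _i : Fin d, 1 := Finset.sum_le_sum fun j _ => hε j
    _ = d := by simp

/-- **`PtData` at the general points of the centre of a valuation, with `hcube` in all degrees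
`≥ r₁`, `r₁` depending only on the cone.** -/
theorem exists_ptData {n : ℕ} (C : GCone n) (D : ℕ) :
    ∃ r₁ : ℕ, ∀ (v : C.R → ℝ) (hv : HVal C.A v) (M0 : ℕ) (e e' : C.R), e ∈ C.A M0 →
      e' ∈ C.A (M0 + 1) → e ∉ hv.rval.P → e' ∉ hv.rval.P → ∀ d : ℕ, d ≤ D →
      Algebra.trdeg ℂ (C.R ⧸ hv.rval.P) = ((d + 1 : ℕ) : Cardinal) → ∀ s : Finset ℝ,
      ∃ (N : ℕ) (g : C.R), g ∈ C.A N ∧ g ∉ hv.rval.P ∧
        ∀ φ : C.Pt, (∀ p ∈ hv.rval.P, φ p = 0) → φ g ≠ 0 →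
          ∃ Dt : PtData C.A hv.rval φ (s : Set ℝ) d,
            ∀ M, r₁ ≤ M → ∀ ε : Fin d → ℕ, (∀ j, ε j ≤ 1) →
              ∃ x : C.A M, IsLead1 (Dt.τ M x) ε := by
  obtain ⟨r₁, hr⟩ := cone_lead_hom C D
  refine ⟨r₁, fun v hv M0 e e' he he' heP heP' d hd htr s => ?_⟩
  haveI := C.finiteType
  have hPprime : hv.rval.P.IsPrime := hv.rval.P_isPrime
  obtain ⟨N, g, r, hg, hgP, H⟩ := exists_general_point_hom' (k := ℂ) C.A hv.rval.P he he' heP heP'
    (d := d) (fun P' hP' hee hPP => by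
      haveI := hP'
      exact exists_noether_slice C.A hv.rval.P P' hv.P_homogeneous he he' heP heP' hee hPP htr)
    s (fun a => hv.rval.b a) (fun a => hv.rval.bgt a) (fun a _ => hv.b_homogeneous a)
    (fun a _ => hv.rval.bgt_le_b a) (fun a _ p hp x hx => hv.rval.P_mul_b hp hx)
    (fun a _ g hg x _ hgx => hv.rval.mem_bgt_of_mul hg hgx)
  refine ⟨N, g, hg, hgP, fun φ hφ hφg => ?_⟩
  obtain ⟨X, τ, θ, hpt, hθ⟩ := H φ hφ hφg
  refine ⟨ptDataOf C.A hv.rval hpt s r θ hθ, fun M hM ε hε => ?_⟩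
  have h0 : constantCoeff (τ e') ≠ 0 := by
    rw [hpt.const _ e' he']
    exact mul_ne_zero (pow_ne_zero _ (div_ne_zero hpt.φe hpt.φe')) hpt.φe'
  obtain ⟨m, hm⟩ := hpt.X_mem
  obtain ⟨L, hL⟩ := hpt.tau_X
  obtain ⟨x, hx, hlead⟩ := hr d τ M0 e e' he he' h0 hpt.tau_e X (fun j => ⟨m, hm j⟩)
    (fun j => ⟨L, hL j⟩) M hM ε (le_trans (deg_le_of_le_one hε) hd)
  exact ⟨⟨x, hx⟩, hlead⟩

/-- The same with a point `z` of the centre (different from the vertex). -/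
theorem exists_ptData_of_pt {n : ℕ} (C : GCone n) (D : ℕ) :
    ∃ r₁ : ℕ, ∀ (v : C.R → ℝ) (hv : HVal C.A v) (z : C.Pt), GCone.NV z →
      (∀ p ∈ hv.rval.P, z p = 0) → ∀ d : ℕ, d ≤ D →
      Algebra.trdeg ℂ (C.R ⧸ hv.rval.P) = ((d + 1 : ℕ) : Cardinal) → ∀ s : Finset ℝ,
      ∃ (N : ℕ) (g : C.R), g ∈ C.A N ∧ g ∉ hv.rval.P ∧
        ∀ φ : C.Pt, (∀ p ∈ hv.rval.P, φ p = 0) → φ g ≠ 0 →
          ∃ Dt : PtData C.A hv.rval φ (s : Set ℝ) d,
            ∀ M, r₁ ≤ M → ∀ ε : Fin d → ℕ, (∀ j, ε j ≤ 1) →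
              ∃ x : C.A M, IsLead1 (Dt.τ M x) ε := by
  obtain ⟨r₁, hr⟩ := exists_ptData C D
  refine ⟨r₁, fun v hv z hz hzP d hd htr s => ?_⟩
  obtain ⟨M0, e, he, e', he', h1, h2⟩ := exists_pair z hz
  exact hr v hv M0 e e' he he' (fun h => h1 (hzP e h)) (fun h => h2 (hzP e' h)) d hd htr s

/-- The same with the growth exponent `d` of the Hilbert function of `R / P` instead of the
transcendence degree. -/
theorem exists_ptData_of_growth {n : ℕ} (C : GCone n) (D : ℕ) :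
    ∃ r₁ : ℕ, ∀ (v : C.R → ℝ) (hv : HVal C.A v) (z : C.Pt), GCone.NV z →
      (∀ p ∈ hv.rval.P, z p = 0) → ∀ d : ℕ, d ≤ D →
      (∃ m₁ ≥ 1, ∃ D' ≥ 1, TwoSided d D' (fun t => hilb C.A hv.rval.P (m₁ * t))) →
      ∀ s : Finset ℝ, ∃ (N : ℕ) (g : C.R), g ∈ C.A N ∧ g ∉ hv.rval.P ∧
        ∀ φ : C.Pt, (∀ p ∈ hv.rval.P, φ p = 0) → φ g ≠ 0 →
          ∃ Dt : PtData C.A hv.rval φ (s : Set ℝ) d,
            ∀ M, r₁ ≤ M → ∀ ε : Fin d → ℕ, (∀ j, ε j ≤ 1) →
              ∃ x : C.A M, IsLead1 (Dt.τ M x) ε := by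
  obtain ⟨r₁, hr⟩ := exists_ptData_of_pt C D
  refine ⟨r₁, fun v hv z hz hzP d hd hTS s => ?_⟩
  haveI := C.finiteType
  have hPprime : hv.rval.P.IsPrime := hv.rval.P_isPrime
  obtain ⟨m₁, hm₁, D', hD', hTS⟩ := hTS
  obtain ⟨k, hk, f, hf, hfz⟩ := hz
  exact hr v hv z ⟨k, hk, f, hf, hfz⟩ hzP d hd
    (trdeg_of_twoSided C.A C.zero hv.P_homogeneous ⟨k, hk, f, hf, fun h => hfz (hzP f h)⟩ hm₁ hD' hTS) s

end Vale.Agent.P271.H112
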