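import Vale.Agent.P271.H112.ToPtData
import Vale.Agent.P271.K3.Out

/-!
# P271 / K3OUT glue: helper231's `GenPt` at all general points of the centre

`exists_genPt`, `exists_genPt_of_pt`, `exists_genPt_of_growth`: the forms of `exists_ptData`,
`exists_ptData_of_pt`, `exists_ptData_of_growth` with the homogeneity of the local parameters,
stated as `K3.GenPt`.
-/

set_option linter.all false

open Finset

namespace Vale.Agent.P271.H112

open MvPowerSeries Vale.Agent.P271.F507 Vale.Agent.P271.H207 Vale.Agent.P271.H84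
  Vale.Agent.P271.Gen Vale.Agent.P271.H70 Vale.Agent.P271.Drop Vale.Agent.P271.Deg Sch

theorem exists_genPt {n : ℕ} (C : GCone n) (D : ℕ) :
    ∃ r₁ : ℕ, ∀ (v : C.R → ℝ) (hv : HVal C.A v) (M0 : ℕ) (e e' : C.R), e ∈ C.A M0 →
      e' ∈ C.A (M0 + 1) → e ∉ hv.rval.P → e' ∉ hv.rval.P → ∀ d : ℕ, d ≤ D →
      Algebra.trdeg ℂ (C.R ⧸ hv.rval.P) = ((d + 1 : ℕ) : Cardinal) → ∀ s : Finset ℝ,
      ∀ M, r₁ ≤ M → K3.GenPt C hv.rval (s : Set ℝ) d M := by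
  obtain ⟨r₁, hr⟩ := cone_lead_hom C D
  refine ⟨r₁, fun v hv M0 e e' he he' heP heP' d hd htr s M hM => ?_⟩
  haveI := C.finiteType
  have hPprime : hv.rval.P.IsPrime := hv.rval.P_isPrime
  obtain ⟨N, g, r, hg, hgP, H⟩ := exists_general_point_hom' (k := ℂ) C.A hv.rval.P he he' heP heP'
    (d := d) (fun P' hP' hee hPP => by
      haveI := hP'
      exact exists_noether_slice C.A hv.rval.P P' hv.P_homogeneous he he' heP heP' hee hPP htr)
    s (fun a => hv.rval.b a) (fun a => hv.rval.bgt a) (fun a _ => hv.b_homogeneous a)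
    (fun a _ => hv.rval.bgt_le_b a) (fun a _ p hp x hx => hv.rval.P_mul_b hp hx)
    (fun a _ g hg x _ hgx => hv.rval.mem_bgt_of_mul hg hgx)
  refine ⟨g, hgP, fun φ _ hφ hφg => ?_⟩
  obtain ⟨X, τ, θ, hpt, hθ⟩ := H φ (fun p hp => RingHom.mem_ker.1 (hφ hp)) hφg
  obtain ⟨m, hm⟩ := hpt.X_mem
  refine ⟨ptDataOf C.A hv.rval hpt s r θ hθ, fun j => ⟨m, hm j⟩, fun ε hε => ?_⟩
  have h0 : constantCoeff (τ e') ≠ 0 := by
    rw [hpt.const _ e' he']
    exact mul_ne_zero (pow_ne_zero _ (div_ne_zero hpt.φe hpt.φe')) hpt.φe'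
  obtain ⟨L, hL⟩ := hpt.tau_X
  obtain ⟨x, hx, hlead⟩ := hr d τ M0 e e' he he' h0 hpt.tau_e X (fun j => ⟨m, hm j⟩)
    (fun j => ⟨L, hL j⟩) M hM ε (le_trans (deg_le_of_le_one hε) hd)
  exact ⟨⟨x, hx⟩, hlead⟩

/-- The same with a point `z` of the centre (different from the vertex). -/
theorem exists_genPt_of_pt {n : ℕ} (C : GCone n) (D : ℕ) :
    ∃ r₁ : ℕ, ∀ (v : C.R → ℝ) (hv : HVal C.A v) (z : C.Pt), GCone.NV z →
      hv.rval.P ≤ RingHom.ker z → ∀ d : ℕ, d ≤ D →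
      Algebra.trdeg ℂ (C.R ⧸ hv.rval.P) = ((d + 1 : ℕ) : Cardinal) → ∀ s : Finset ℝ,
      ∀ M, r₁ ≤ M → K3.GenPt C hv.rval (s : Set ℝ) d M := by
  obtain ⟨r₁, hr⟩ := exists_genPt C D
  refine ⟨r₁, fun v hv z hz hzP d hd htr s => ?_⟩
  obtain ⟨M0, e, he, e', he', h1, h2⟩ := exists_pair z hz
  exact hr v hv M0 e e' he he' (fun h => h1 (RingHom.mem_ker.1 (hzP h)))
    (fun h => h2 (RingHom.mem_ker.1 (hzP h))) d hd htr s

/-- The same with the growth exponent `d` of the Hilbert function of `R / P` instead of the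
transcendence degree. -/
theorem exists_genPt_of_growth {n : ℕ} (C : GCone n) (D : ℕ) :
    ∃ r₁ : ℕ, ∀ (v : C.R → ℝ) (hv : HVal C.A v) (z : C.Pt), GCone.NV z →
      hv.rval.P ≤ RingHom.ker z → ∀ d : ℕ, d ≤ D →
      (∃ m₁ ≥ 1, ∃ D' ≥ 1, TwoSided d D' (fun t => hilb C.A hv.rval.P (m₁ * t))) →
      ∀ s : Finset ℝ, ∀ M, r₁ ≤ M → K3.GenPt C hv.rval (s : Set ℝ) d M := by
  obtain ⟨r₁, hr⟩ := exists_genPt_of_pt C D
  refine ⟨r₁, fun v hv z hz hzP d hd hTS s => ?_⟩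
  haveI := C.finiteType
  have hPprime : hv.rval.P.IsPrime := hv.rval.P_isPrime
  obtain ⟨m₁, hm₁, D', hD', hTS⟩ := hTS
  obtain ⟨k, hk, f, hf, hfz⟩ := hz
  exact hr v hv z ⟨k, hk, f, hf, hfz⟩ hzP d hd
    (trdeg_of_twoSided C.A C.zero hv.P_homogeneous
      ⟨k, hk, f, hf, fun h => hfz (RingHom.mem_ker.1 (hzP h))⟩ hm₁ hD' hTS) s

/-- The same with the finite set `S` of all values in degrees `≤ m`. -/
theorem exists_genPt_hval {n : ℕ} (C : GCone n) (D : ℕ) [∀ M, FiniteDimensional ℂ (C.A M)] :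
    ∃ r₁ : ℕ, ∀ (v : C.R → ℝ) (hv : HVal C.A v) (z : C.Pt), GCone.NV z →
      hv.rval.P ≤ RingHom.ker z → ∀ d : ℕ, d ≤ D →
      (∃ m₁ ≥ 1, ∃ D' ≥ 1, TwoSided d D' (fun t => hilb C.A hv.rval.P (m₁ * t))) →
      ∀ m : ℕ, ∃ S : Set ℝ,
        (∀ M ≤ m, ∀ x ∈ C.A M, x ≠ 0 → hv.ext x ∈ S) ∧
          ∀ r, r₁ ≤ r → K3.GenPt C hv.rval S d r := by
  classical
  obtain ⟨r₁, hr⟩ := exists_genPt_of_growth C D
  refine ⟨r₁, fun v hv z hz hzP d hd hTS m => ?_⟩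
  refine ⟨((range (m + 1)).biUnion fun M => (hv.rval.wt (C.A M)).finite_values.toFinset :
    Finset ℝ), fun M hM x hx hx0 => ?_, fun r hr' => hr v hv z hz hzP d hd hTS _ r hr'⟩
  rw [Finset.mem_coe, Finset.mem_biUnion]
  refine ⟨M, Finset.mem_range.2 (by omega), ?_⟩
  rw [Set.Finite.mem_toFinset]
  exact ⟨⟨x, hx⟩, fun h0 => hx0 (congrArg Subtype.val h0), rfl⟩

end Vale.Agent.P271.H112
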