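import Mathlib

/-!
# P271 / JET: one degree `r₁` in which the sections generate all jets, uniformly

Abstract form: `R` a graded `K`-algebra generated by homogeneous `x l` of degree `w l ≤ W`,
`τ : R → S` an algebra homomorphism into a `K`-algebra with a point `ev : S → K` (all `u` with
`ev u ≠ 0` are units), `J ⊇ (ker ev) ^ N` an ideal.  If `e`, `e'` are homogeneous of degrees `k`,
`k + 1` and do not vanish at the point, and every `f : S` is modulo `J` a quotient of two sections of
the same degree, then in *every* degree `M ≥ (N - 1) W (k + 1) + k ^ 2` every `f` is modulo `J` a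
quotient of two sections of degree `M`.
-/

set_option linter.all false

open Finset

namespace Vale.Agent.P271.H112

section Abstract

variable {K R S : Type*} [Field K] [CommRing R] [Algebra K R] [CommRing S] [Algebra K S]

/-- In the semiring of submodules: `(1 + H) ^ (n + i) ≤ (1 + H) ^ n` modulo an ideal containing
the powers `H ^ j`, `j > n`. -/
theorem adjoin_le_pow_sup {S : Type*} [CommRing S] [Algebra K S] (s : Set S) (N : ℕ)
    (J : Submodule K S) (hJ : ∀ j, N < j → (Submodule.span K s) ^ j ≤ J) :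
    Subalgebra.toSubmodule (Algebra.adjoin K s) ≤ (1 ⊔ Submodule.span K s) ^ N ⊔ J := by
  rw [Algebra.adjoin_eq_span, Submodule.span_le]
  intro x hx
  have h1 : ∃ j : ℕ, x ∈ (Submodule.span K s) ^ j := by
    induction hx using Submonoid.closure_induction with
    | mem y hy => exact ⟨1, by rw [pow_one]; exact Submodule.subset_span hy⟩
    | one => exact ⟨0, by rw [pow_zero]; exact Submodule.one_le.1 le_rfl⟩
    | mul y z _ _ hy hz =>
      obtain ⟨i, hi⟩ := hy
      obtain ⟨j, hj⟩ := hz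
      exact ⟨i + j, by rw [pow_add]; exact Submodule.mul_mem_mul hi hj⟩
  obtain ⟨j, hj⟩ := h1
  by_cases h : N < j
  · exact Submodule.mem_sup_right (hJ j h hj)
  · refine Submodule.mem_sup_left ?_
    have h2 : (Submodule.span K s) ^ j ≤ (1 ⊔ Submodule.span K s) ^ N :=
      le_trans (pow_le_pow_left' le_sup_right j)
        (pow_le_pow_right' le_sup_left (not_lt.1 h))
    exact h2 hj

variable (A : ℕ → Submodule K R) [GradedAlgebra A]

/-- the components of `twist` -/
noncomputable def twF (τ : R →ₐ[K] S) (U : S) (i : ℕ) : A i →ₗ[K] S :=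
  (LinearMap.mulLeft K (U ^ i)).comp (τ.toLinearMap.comp (A i).subtype)

theorem twF_apply (τ : R →ₐ[K] S) (U : S) (i : ℕ) (a : A i) : twF A τ U i a = U ^ i * τ a := rfl

theorem twist_one (τ : R →ₐ[K] S) (U : S) :
    twF A τ U 0 (GradedMonoid.GOne.one (A := fun i => ↥(A i))) = 1 := by
  have : ((GradedMonoid.GOne.one (A := fun i => ↥(A i)) : A 0) : R) = 1 := rfl
  rw [twF_apply, this, pow_zero, map_one, one_mul]

theorem twist_mul (τ : R →ₐ[K] S) (U : S) {i j : ℕ} (a : A i) (b : A j) :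
    twF A τ U (i + j) (GradedMonoid.GMul.mul (A := fun i => ↥(A i)) a b) =
      twF A τ U i a * twF A τ U j b := by
  have : ((GradedMonoid.GMul.mul (A := fun i => ↥(A i)) a b : A (i + j)) : R) = (a : R) * b := rfl
  rw [twF_apply, twF_apply, twF_apply, this, map_mul, pow_add]
  ring

/-- Twist of an algebra homomorphism from a graded algebra by the powers of an element. -/
noncomputable def twist (τ : R →ₐ[K] S) (U : S) : R →ₐ[K] S :=
  (DirectSum.toAlgebra K (fun i => A i) (twF A τ U)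
    (twist_one A τ U) (fun a b => twist_mul A τ U a b)).comp
    (DirectSum.decomposeAlgEquiv A).toAlgHom

theorem twist_apply (τ : R →ₐ[K] S) (U : S) {i : ℕ} {s : R} (hs : s ∈ A i) :
    twist A τ U s = U ^ i * τ s := by
  have h1 : (DirectSum.decomposeAlgEquiv A) s = DirectSum.of (fun i => A i) i ⟨s, hs⟩ := by
    rw [DirectSum.decomposeAlgEquiv_apply]
    exact DirectSum.decompose_of_mem A hs
  have h2 : twist A τ U s = DirectSum.toAlgebra K (fun i => A i) (twF A τ U)
    (twist_one A τ U) (fun a b => twist_mul A τ U a b) ((DirectSum.decomposeAlgEquiv A) s) := rfl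
  rw [h2, h1]
  exact DirectSum.toSemiring_of (fun i => (twF A τ U i).toAddMonoidHom) (twist_one A τ U)
    (fun a b => twist_mul A τ U a b) i ⟨s, hs⟩

theorem span_pow_le (ev : S →ₐ[K] K) (s : Set S) (hs : ∀ y ∈ s, ev y = 0) (j : ℕ) :
    (Submodule.span K s) ^ j ≤ ((RingHom.ker ev) ^ j).restrictScalars K := by
  induction j with
  | zero =>
    intro y _
    simp
  | succ j ih =>
    rw [pow_succ, Submodule.mul_le]
    intro y hy z hz
    rw [Submodule.restrictScalars_mem, pow_succ]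
    refine Ideal.mul_mem_mul (ih hy) ?_
    have : Submodule.span K s ≤ (RingHom.ker ev).restrictScalars K := by
      rw [Submodule.span_le]
      intro y hy
      exact (RingHom.mem_ker).2 (hs y hy)
    exact this hz

theorem exists_repr (k h : ℕ) (hh : k ^ 2 ≤ h) : ∃ a b : ℕ, h = a * k + b * (k + 1) := by
  rcases Nat.eq_zero_or_pos k with hk | hk
  · subst hk
    exact ⟨0, h, by ring⟩
  · have h1 : h % k < k := Nat.mod_lt _ hk
    have h2 : k ≤ h / k := by
      rw [Nat.le_div_iff_mul_le hk]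
      nlinarith
    have h3 : k * (h / k) + h % k = h := Nat.div_add_mod h k
    obtain ⟨c, hc⟩ : ∃ c, h / k = c + h % k := ⟨h / k - h % k, by omega⟩
    refine ⟨c, h % k, ?_⟩
    rw [hc] at h3
    nlinarith

/-- **Uniform generation of jets** (abstract form). -/
theorem jets_abstract {ι : Type*} (x : ι → R) (w : ι → ℕ) (hx : ∀ l, x l ∈ A (w l))
    (hgen : Algebra.adjoin K (Set.range x) = ⊤) (W : ℕ) (hW : ∀ l, w l ≤ W) (N : ℕ)
    (ev : S →ₐ[K] K) (hunit : ∀ u, ev u ≠ 0 → IsUnit u) (J : Ideal S)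
    (hJ : (RingHom.ker ev) ^ (N + 1) ≤ J) (τ : R →ₐ[K] S) {k : ℕ} {e e' : R} (he : e ∈ A k)
    (he' : e' ∈ A (k + 1)) (hev : ev (τ e) ≠ 0) (hev' : ev (τ e') ≠ 0)
    (hsurj : ∀ f : S, ∃ (M : ℕ) (s g : R), s ∈ A M ∧ g ∈ A M ∧ ev (τ g) ≠ 0 ∧
      τ s - f * τ g ∈ J)
    (M : ℕ) (hM : N * (W * (k + 1)) + k ^ 2 ≤ M) (f : S) :
    ∃ s g : R, s ∈ A M ∧ g ∈ A M ∧ ev (τ g) ≠ 0 ∧ τ s - f * τ g ∈ J := by
  classical
  obtain ⟨Ei, hEi⟩ := (hunit _ hev).exists_right_inv
  obtain ⟨Ei', hEi'⟩ := (hunit _ hev').exists_right_inv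
  set U : S := τ e * Ei' with hU
  set V : S := τ e' * Ei with hV
  have hUV : U * V = 1 := by
    rw [hU, hV]
    calc τ e * Ei' * (τ e' * Ei) = (τ e * Ei) * (τ e' * Ei') := by ring
      _ = 1 := by rw [hEi, hEi', one_mul]
  have hevU : ev U ≠ 0 := by
    intro h
    have := congrArg ev hUV
    rw [map_mul, h, zero_mul, map_one] at this
    exact one_ne_zero this.symm
  set Ψ := twist A τ U with hΨ
  have hΨa : ∀ {i : ℕ} {s : R}, s ∈ A i → Ψ s = U ^ i * τ s := fun hs => twist_apply A τ U hs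
  set G0 : S := Ψ e with hG0
  have hG0' : Ψ e' = G0 := by
    rw [hG0, hΨa he, hΨa he', pow_succ, hU]
    calc (τ e * Ei') ^ k * (τ e * Ei') * τ e' = (τ e * Ei') ^ k * τ e * (τ e' * Ei') := by ring
      _ = _ := by rw [hEi', mul_one]
  -- the generators at the point
  set β : ι → S := fun l => Ψ (x l) - algebraMap K S (ev (Ψ (x l))) with hβ
  have hβ0 : ∀ y ∈ Set.range β, ev y = 0 := by
    rintro _ ⟨l, rfl⟩
    rw [hβ]
    simp
  have hrange : Ψ.range ≤ Algebra.adjoin K (Set.range β) := by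
    have h1 : Ψ.range = Algebra.adjoin K (Ψ '' Set.range x) := by
      rw [← AlgHom.map_adjoin, hgen, Algebra.map_top]
    rw [h1, Algebra.adjoin_le_iff]
    rintro _ ⟨_, ⟨l, rfl⟩, rfl⟩
    have h2 : Ψ (x l) = β l + algebraMap K S (ev (Ψ (x l))) := by rw [hβ]; simp
    rw [h2]
    exact add_mem (Algebra.subset_adjoin ⟨l, rfl⟩) (Subalgebra.algebraMap_mem _ _)
  have hDJ : Subalgebra.toSubmodule (Algebra.adjoin K (Set.range β)) ≤
      (1 ⊔ Submodule.span K (Set.range β)) ^ N ⊔ J.restrictScalars K := by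
    refine adjoin_le_pow_sup _ N _ fun j hj => le_trans (span_pow_le ev _ hβ0 j) ?_
    intro y hy
    exact hJ (Ideal.pow_le_pow_right hj hy)
  set D' : Submodule K S := 1 ⊔ Submodule.span K (Set.range fun l => Ψ (x l)) with hD'
  have hDD' : (1 ⊔ Submodule.span K (Set.range β)) ≤ D' := by
    refine sup_le le_sup_left ?_
    rw [Submodule.span_le]
    rintro _ ⟨l, rfl⟩
    refine Submodule.sub_mem _ (Submodule.mem_sup_right (Submodule.subset_span ⟨l, rfl⟩)) ?_
    exact Submodule.mem_sup_left (Submodule.algebraMap_mem _)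
  -- every element is a polynomial of degree `≤ N` modulo `J`
  have claimS : ∀ f : S, ∃ y ∈ D' ^ N, f - y ∈ J := by
    intro f
    obtain ⟨M0, s0, g0, hs0, hg0, hevg, hsub⟩ := hsurj f
    have h1 : Ψ s0 - f * Ψ g0 ∈ J := by
      rw [hΨa hs0, hΨa hg0]
      have : U ^ M0 * τ s0 - f * (U ^ M0 * τ g0) = U ^ M0 * (τ s0 - f * τ g0) := by ring
      rw [this]
      exact J.mul_mem_left _ hsub
    set c : K := ev (Ψ g0) with hc
    have hc0 : c ≠ 0 := by
      rw [hc, hΨa hg0, map_mul, map_pow]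
      exact mul_ne_zero (pow_ne_zero _ hevU) hevg
    set ν : S := Ψ (1 - c⁻¹ • g0) with hν
    have hν1 : 1 - ν = c⁻¹ • Ψ g0 := by
      rw [hν]; simp
    have hν0 : ν ∈ RingHom.ker ev := by
      rw [RingHom.mem_ker]
      have : ν = 1 - c⁻¹ • Ψ g0 := by rw [← hν1]; ring
      rw [this, map_sub, map_one, map_smul, ← hc, smul_eq_mul, inv_mul_cancel₀ hc0, sub_self]
    have hνN : ν ^ (N + 1) ∈ J := hJ (Ideal.pow_mem_pow hν0 _)
    set y1 : S := Ψ (c⁻¹ • s0 * ∑ i ∈ range (N + 1), (1 - c⁻¹ • g0) ^ i) with hy1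
    have hy1' : y1 = c⁻¹ • Ψ s0 * ∑ i ∈ range (N + 1), ν ^ i := by
      rw [hy1, map_mul, map_smul, map_sum]
      simp only [map_pow, hν]
    have hfy1 : f - y1 ∈ J := by
      have h2 : (1 - ν) * ∑ i ∈ range (N + 1), ν ^ i = 1 - ν ^ (N + 1) := mul_neg_geom_sum ν _
      have h3 : f - y1 = f * ν ^ (N + 1) -
          (c⁻¹ • (Ψ s0 - f * Ψ g0)) * ∑ i ∈ range (N + 1), ν ^ i := by
        have h4 : f * ν ^ (N + 1) = f - f * ((1 - ν) * ∑ i ∈ range (N + 1), ν ^ i) := by
          rw [h2]; ring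
        rw [h4, hy1', hν1, smul_sub, Algebra.smul_def, Algebra.smul_def, Algebra.smul_def]
        ring
      rw [h3]
      refine J.sub_mem (J.mul_mem_left _ hνN) (J.mul_mem_right _ ?_)
      rw [Algebra.smul_def]
      exact J.mul_mem_left _ h1
    have hy1mem : y1 ∈ (1 ⊔ Submodule.span K (Set.range β)) ^ N ⊔ J.restrictScalars K :=
      hDJ (hrange ⟨_, rfl⟩)
    obtain ⟨y, hy, z, hz, hyz⟩ := Submodule.mem_sup.1 hy1mem
    refine ⟨y, pow_le_pow_left' hDD' N hy, ?_⟩
    have : f - y = (f - y1) + z := by rw [← hyz]; ring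
    rw [this]
    exact J.add_mem hfy1 hz
  -- common denominators
  have hT1 : D' ≤ ((A (W * (k + 1))).map Ψ.toLinearMap).comap (LinearMap.mulRight K (G0 ^ W)) := by
    refine sup_le ?_ ?_
    · rw [Submodule.one_le, Submodule.mem_comap]
      refine ⟨e' ^ W, ?_, ?_⟩
      · exact SetLike.pow_mem_graded W he'
      · simp [hG0']
    · rw [Submodule.span_le]
      rintro _ ⟨l, rfl⟩
      refine ⟨x l * e ^ (w l) * e' ^ (W - w l), ?_, ?_⟩
      · have h1 := SetLike.mul_mem_graded (SetLike.mul_mem_graded (hx l)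
          (SetLike.pow_mem_graded (w l) he)) (SetLike.pow_mem_graded (W - w l) he')
        have h2 : w l + w l • k + (W - w l) • (k + 1) = W * (k + 1) := by
          obtain ⟨c, hc⟩ := Nat.exists_eq_add_of_le (hW l)
          rw [hc, Nat.add_sub_cancel_left, smul_eq_mul, smul_eq_mul]
          ring
        rw [h2] at h1
        exact h1
      · have h3 : w l + (W - w l) = W := by have := hW l; omega
        simp only [AlgHom.toLinearMap_apply, map_mul, map_pow, hG0', LinearMap.mulRight_apply]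
        rw [← hG0, mul_assoc, ← pow_add, h3]
  have hT : ∀ n : ℕ, D' ^ n ≤
      ((A (n * (W * (k + 1)))).map Ψ.toLinearMap).comap (LinearMap.mulRight K (G0 ^ (n * W))) := by
    intro n
    induction n with
    | zero =>
      rw [pow_zero, Submodule.one_le]
      refine ⟨1, ?_, ?_⟩
      · rw [zero_mul]; exact SetLike.one_mem_graded A
      · simp
    | succ n ih =>
      rw [pow_succ, Submodule.mul_le]
      intro y hy z hz
      obtain ⟨s, hs, hs'⟩ := ih hy
      obtain ⟨t, ht, ht'⟩ := hT1 hz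
      refine ⟨s * t, ?_, ?_⟩
      · have h1 := SetLike.mul_mem_graded hs ht
        have h2 : n * (W * (k + 1)) + W * (k + 1) = (n + 1) * (W * (k + 1)) := by ring
        rw [h2] at h1
        exact h1
      · rw [AlgHom.toLinearMap_apply] at hs' ht' ⊢
        rw [map_mul, hs', ht', LinearMap.mulRight_apply, LinearMap.mulRight_apply,
          LinearMap.mulRight_apply]
        ring
  -- conclusion
  obtain ⟨y, hy, hfy⟩ := claimS f
  obtain ⟨s0, hs0, hs0'⟩ := hT N hy
  rw [AlgHom.toLinearMap_apply, LinearMap.mulRight_apply] at hs0'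
  obtain ⟨h, rfl⟩ := Nat.exists_eq_add_of_le (le_trans (Nat.le_add_right _ _) hM)
  obtain ⟨a, b, hab⟩ := exists_repr k h (by omega)
  have hsM : s0 * e ^ a * e' ^ b ∈ A (N * (W * (k + 1)) + h) := by
    have h1 := SetLike.mul_mem_graded (SetLike.mul_mem_graded hs0
      (SetLike.pow_mem_graded a he)) (SetLike.pow_mem_graded b he')
    have h2 : N * (W * (k + 1)) + a • k + b • (k + 1) = N * (W * (k + 1)) + h := by
      rw [hab, smul_eq_mul, smul_eq_mul]; ring
    rw [h2] at h1
    exact h1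
  have hgM : e' ^ (N * W) * e ^ a * e' ^ b ∈ A (N * (W * (k + 1)) + h) := by
    have h1 := SetLike.mul_mem_graded (SetLike.mul_mem_graded
      (SetLike.pow_mem_graded (N * W) he')
      (SetLike.pow_mem_graded a he)) (SetLike.pow_mem_graded b he')
    have h2 : (N * W) • (k + 1) + a • k + b • (k + 1) = N * (W * (k + 1)) + h := by
      rw [hab, smul_eq_mul, smul_eq_mul, smul_eq_mul]; ring
    rw [h2] at h1
    exact h1
  refine ⟨_, _, hsM, hgM, ?_, ?_⟩
  · simp only [map_mul, map_pow]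
    exact mul_ne_zero (mul_ne_zero (pow_ne_zero _ hev') (pow_ne_zero _ hev)) (pow_ne_zero _ hev')
  · set M := N * (W * (k + 1)) + h with hMdef
    have h1 : Ψ (s0 * e ^ a * e' ^ b) - f * Ψ (e' ^ (N * W) * e ^ a * e' ^ b) ∈ J := by
      rw [map_mul, map_mul, map_mul, map_mul, map_pow, map_pow, map_pow, hG0', ← hG0, hs0']
      have : y * G0 ^ (N * W) * G0 ^ a * G0 ^ b - f * (G0 ^ (N * W) * G0 ^ a * G0 ^ b) =
          -(G0 ^ (N * W) * G0 ^ a * G0 ^ b) * (f - y) := by ring
      rw [this]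
      exact J.mul_mem_left _ hfy
    rw [hΨa hsM, hΨa hgM] at h1
    have h2 := J.mul_mem_left (V ^ M) h1
    have h3 : V ^ M * U ^ M = 1 := by rw [← mul_pow, mul_comm V U, hUV, one_pow]
    have h4 : V ^ M * (U ^ M * τ (s0 * e ^ a * e' ^ b) -
        f * (U ^ M * τ (e' ^ (N * W) * e ^ a * e' ^ b))) =
        (V ^ M * U ^ M) * (τ (s0 * e ^ a * e' ^ b) -
          f * τ (e' ^ (N * W) * e ^ a * e' ^ b)) := by ring
    rw [h4, h3, one_mul] at h2
    exact h2

end Abstract

end Vale.Agent.P271.H112
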