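import Vale.Agent.P271.H112.JetPS

/-!
# P271 / JET for Taylor expansions `τ` with `τ e = τ e'` and `τ (X j) = τ e' ^ L * X j`
-/

set_option linter.all false

open Finset

namespace Vale.Agent.P271.H112

open MvPowerSeries Vale.Agent.P271.F507 Vale.Agent.P271.H207 Sch

theorem isFrac_of_tauX {K : Type*} [Field K] {R : Type*} [CommRing R] [Algebra K R]
    (A : ℕ → Submodule K R) [GradedAlgebra A] {d : ℕ} (τ : R →ₐ[K] MvPowerSeries (Fin d) K)
    {M0 : ℕ} {e e' : R} (he : e ∈ A M0) (he' : e' ∈ A (M0 + 1))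
    (h0 : constantCoeff (τ e') ≠ 0) (hee : τ e = τ e') {x : R} {n L : ℕ} (hx : x ∈ A n)
    {f : MvPowerSeries (Fin d) K} (hxf : τ x = τ e' ^ L * f) : IsFrac A τ f := by
  refine ⟨n + n * M0 + (L * (M0 + 1)) * (M0 + 1), x * e ^ n * e' ^ (L * (M0 + 1)),
    e' ^ L * e ^ (L * (M0 + 1)) * e' ^ n, ?_, ?_, ?_, ?_⟩
  · have h1 := SetLike.mul_mem_graded (SetLike.mul_mem_graded hx (SetLike.pow_mem_graded n he))
      (SetLike.pow_mem_graded (L * (M0 + 1)) he')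
    simpa only [smul_eq_mul] using h1
  · have h1 := SetLike.mul_mem_graded (SetLike.mul_mem_graded (SetLike.pow_mem_graded L he')
      (SetLike.pow_mem_graded (L * (M0 + 1)) he)) (SetLike.pow_mem_graded n he')
    have h2 : L • (M0 + 1) + (L * (M0 + 1)) • M0 + n • (M0 + 1) =
        n + n * M0 + L * (M0 + 1) * (M0 + 1) := by
      simp only [smul_eq_mul]; ring
    rw [h2] at h1
    exact h1
  · simp only [map_mul, map_pow, hee]
    exact mul_ne_zero (mul_ne_zero (pow_ne_zero _ h0) (pow_ne_zero _ h0)) (pow_ne_zero _ h0)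
  · simp only [map_mul, map_pow, hee, hxf]
    ring

/-- **JET for a cone**, in the form of the Taylor expansions of `Gen/Hom.lean`. -/
theorem cone_lead_hom {n : ℕ} (C : GCone n) (N : ℕ) :
    ∃ r₁ : ℕ, ∀ (d : ℕ) (τ : C.R →ₐ[ℂ] MvPowerSeries (Fin d) ℂ) (M0 : ℕ) (e e' : C.R)
      (_ : e ∈ C.A M0) (_ : e' ∈ C.A (M0 + 1)) (_ : constantCoeff (τ e') ≠ 0) (_ : τ e = τ e')
      (x : Fin d → C.R) (_ : ∀ j, ∃ m, x j ∈ C.A m)
      (_ : ∀ j, ∃ L : ℕ, τ (x j) = τ e' ^ L * (X j : MvPowerSeries (Fin d) ℂ)),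
      ∀ M, r₁ ≤ M → ∀ ε : Fin d → ℕ, deg ε ≤ N → ∃ s ∈ C.A M, IsLead1 (τ s) ε := by
  haveI := C.finiteType
  obtain ⟨r₁, hr⟩ := exists_lead_degree (K := ℂ) C.A N
  refine ⟨r₁, fun d τ M0 e e' he he' h0 hee x hx hxX M hM ε hε => ?_⟩
  refine hr d τ ⟨M0, e, he, e', he', by rw [hee]; exact h0, h0⟩
    (exists_approx C.A τ (fun j => ?_) N) M hM ε hε
  obtain ⟨m, hm⟩ := hx j
  obtain ⟨L, hL⟩ := hxX j
  exact isFrac_of_tauX C.A τ he he' h0 hee hm hL

end Vale.Agent.P271.H112
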